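import Mathlib

/-!
# P134: rotational symmetry in some of the coordinates
-/

noncomputable section

namespace Vale.Agent.P134.Sym

/-- Invariance under the rotations and reflections of the coordinates in `S`. -/
def IsRotInvariant {n : ℕ} (S : Finset (Fin n)) (u : (Fin n → ℝ) → ℝ) : Prop :=
  ∀ x y : Fin n → ℝ, (∀ j, j ∉ S → x j = y j) → ∑ j ∈ S, x j ^ 2 = ∑ j ∈ S, y j ^ 2 → u x = u y

end Vale.Agent.P134.Sym
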