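import Vale.Agent.P134.Sym.Hardy

/-!
# P134: the upper profile of a symmetric solution does not depend on the symmetric coordinates
-/

noncomputable section

open MeasureTheory Set Real Filter Topology

namespace Vale.Agent.P134.Sym

open Vale.Agent.P134.Periodic (pd continuous_pd)
open Vale.Agent.P134.Recur
open Vale.Agent.P134.Slab (plateau contDiff_plateau plateau_mem plateau_eq_zero primitive
  contDiff_primitive hasDerivAt_primitive primitive_left primitive_right abs_primitive_le)

variable {m : ℕ} (P : Sol m) {S : Finset (Fin (m + 1))}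

/-- The unit vector of the increasing axis. -/
def ea : Fin (m + 1) → ℝ := Pi.single P.a 1

/-- The solution seen from `t` along its axis. -/
def shift (t : ℝ) : Sol m := P.translate (t • ea P)

lemma shift_u (t : ℝ) (x : Fin (m + 1) → ℝ) : (shift P t).u x = P.u (x + t • ea P) := rfl

lemma monotone_line (x : Fin (m + 1) → ℝ) : Monotone fun t : ℝ => P.u (x + t • ea P) := by
  have h : ∀ t, HasDerivAt (fun t : ℝ => P.u (x + t • ea P)) (pd P.u P.a (x + t • ea P)) t := fun t => by
    simpa [ea] using Slab.hasDerivAt_line P.contDiff_u x P.a 1 t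
  refine monotone_of_deriv_nonneg (fun t => (h t).differentiableAt) fun t => ?_
  rw [(h t).deriv]
  exact (P.sol.mono _).le

/-- The upper profile. -/
def top (x : Fin (m + 1) → ℝ) : ℝ := ⨆ t : ℝ, P.u (x + t • ea P)

lemma tendsto_top (x : Fin (m + 1) → ℝ) : Tendsto (fun t => (shift P t).u x) atTop (𝓝 (top P x)) :=
  tendsto_atTop_ciSup (monotone_line P x) ⟨1, by rintro _ ⟨t, rfl⟩; exact (abs_le.1 (P.sol.bdd _)).2⟩

lemma u_le_top (t : ℝ) (x : Fin (m + 1) → ℝ) : (shift P t).u x ≤ top P x :=
  le_ciSup (f := fun t : ℝ => P.u (x + t • ea P))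
    ⟨1, by rintro _ ⟨t, rfl⟩; exact (abs_le.1 (P.sol.bdd _)).2⟩ t

lemma lipschitz_u (x y : Fin (m + 1) → ℝ) :
    |P.u x - P.u y| ≤ ((m : ℝ) + 1) * ((m : ℝ) + 3) * ‖x - y‖ := by
  have hC : 0 ≤ ((m : ℝ) + 1) * ((m : ℝ) + 3) := by positivity
  refine (Convex.norm_image_sub_le_of_norm_fderiv_le (fun z _ => P.contDiff_u.differentiable one_ne_zero z)
    (fun z _ => ?_) convex_univ (mem_univ y) (mem_univ x))
  refine ContinuousLinearMap.opNorm_le_bound _ hC fun w => ?_
  have hw : w = ∑ k, w k • (Pi.single k 1 : Fin (m + 1) → ℝ) := by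
    ext l; simp [Finset.sum_apply, Pi.single_apply]
  rw [Real.norm_eq_abs]
  conv_lhs => rw [hw]
  simp only [map_sum, map_smul, smul_eq_mul]
  refine (Finset.abs_sum_le_sum_abs _ _).trans ((Finset.sum_le_card_nsmul _ _ (((m : ℝ) + 3) * ‖w‖)
    fun k _ => ?_).trans (le_of_eq (by simp; ring)))
  rw [abs_mul, mul_comm]
  exact mul_le_mul (P.abs_pd_u_le k z) (norm_le_pi_norm w k) (abs_nonneg _) (by positivity)

lemma continuous_top : Continuous (top P) := by
  refine (LipschitzWith.of_dist_le_mul (K := ⟨((m : ℝ) + 1) * ((m : ℝ) + 3), by positivity⟩)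
    fun x y => ?_).continuous
  rw [dist_eq_norm, dist_eq_norm, Real.norm_eq_abs]
  refine le_of_tendsto ((tendsto_top P x).sub (tendsto_top P y)).abs (Eventually.of_forall fun t => ?_)
  have h := lipschitz_u P (x + t • ea P) (y + t • ea P)
  rw [add_sub_add_right_eq_sub] at h
  exact h

/-- Weighted integrals of the translates converge to the profile. -/
lemma tendsto_integral_top {f : (Fin (m + 1) → ℝ) → ℝ} (hf : Continuous f) (hs : HasCompactSupport f)
    (y : Fin (m + 1) → ℝ) {T : ℕ → ℝ} (hT : Tendsto T atTop atTop) :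
    Tendsto (fun k => ∫ x, f x * (shift P (T k)).u (x + y)) atTop (𝓝 (∫ x, f x * top P (x + y))) := by
  refine tendsto_integral_of_dominated_convergence (fun x => |f x|) (fun k => ?_)
    (integrable_of_supp hf hs).abs (fun k => Eventually.of_forall fun x => ?_)
    (Eventually.of_forall fun x => ((tendsto_top P _).comp hT).const_mul _)
  · exact (hf.fun_mul ((shift P (T k)).contDiff_u.continuous.comp
      (continuous_id.add continuous_const))).aestronglyMeasurable
  · rw [norm_mul, Real.norm_eq_abs, Real.norm_eq_abs]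
    exact mul_le_of_le_one_right (abs_nonneg _) ((shift P (T k)).sol.bdd _)

lemma sum_translates_le {M R : ℝ} (hM : 0 < M) (hR : 0 < R) {N : ℕ} (hN : 4 * M * N ≤ R) (k : ℕ)
    {α : ℝ} (hα : 0 ≤ α) {a : Fin (m + 1)} (haS : a ∉ S) (h2 : 2 * M ≤ R) (x : Fin (m + 1) → ℝ) :
    ∑ l ∈ Finset.range N, cube M (x - (4 * M * (l : ℝ)) • Pi.single a (1 : ℝ)) ≤
      (1 + ((m : ℝ) + 1) * (4 * M ^ 2)) ^ (α + 1) * (wgt S α x * cube R x ^ (2 * k)) := by
  classical
  set c := fun l : ℕ => cube M (x - (4 * M * (l : ℝ)) • Pi.single a (1 : ℝ)) with hc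
  by_cases h0 : ∀ l ∈ Finset.range N, c l = 0
  · rw [Finset.sum_eq_zero h0]
    have := (cube_mem (m := m) R x).1
    have := wgt_pos (S := S) α x
    positivity
  push Not at h0
  obtain ⟨l₀, hl₀, hne⟩ := h0
  have hmem : ∀ l, c l ≠ 0 → |x a - 4 * M * l| < 2 * M ∧ ∀ j, j ≠ a → |x j| < 2 * M := fun l hl => by
    constructor
    · by_contra h
      push Not at h
      exact hl (cube_eq_zero hM (j := a) (by simpa using h))
    · intro j hj
      by_contra h
      push Not at h
      exact hl (cube_eq_zero hM (j := j) (by simpa [Pi.single_eq_of_ne hj] using h))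
  have hsum : ∑ l ∈ Finset.range N, c l = c l₀ := by
    refine Finset.sum_eq_single l₀ (fun l _ hl => ?_) fun h => absurd hl₀ h
    by_contra h
    have h1 := abs_lt.1 (hmem l h).1
    have h2 := abs_lt.1 (hmem l₀ hne).1
    rcases lt_or_gt_of_ne hl with hlt | hlt
    · have : (l : ℝ) + 1 ≤ l₀ := by exact_mod_cast hlt
      nlinarith
    · have : (l₀ : ℝ) + 1 ≤ l := by exact_mod_cast hlt
      nlinarith
  obtain ⟨ha, hj⟩ := hmem l₀ hne
  have hin : ∀ j, |x j| ≤ R := fun j => by
    by_cases hja : j = a
    · subst hja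
      have hlN : (l₀ : ℝ) + 1 ≤ N := by exact_mod_cast Finset.mem_range.1 hl₀
      have hl0 : (0 : ℝ) ≤ l₀ := l₀.cast_nonneg
      rw [abs_lt] at ha
      rw [abs_le]
      constructor <;> nlinarith
    · exact (hj j hja).le.trans h2
  have hρ : rho S x ≤ ((m : ℝ) + 1) * (4 * M ^ 2) := by
    refine (Finset.sum_le_card_nsmul _ _ (4 * M ^ 2) fun j hjS => ?_).trans ?_
    · have := hj j (fun h => haS (h ▸ hjS))
      rw [abs_lt] at this
      nlinarith
    · rw [nsmul_eq_mul]
      refine mul_le_mul_of_nonneg_right ?_ (by positivity)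
      exact_mod_cast (Finset.card_le_univ S).trans_eq (Fintype.card_fin (m + 1))
  rw [hsum, cube_eq_one hR hin, one_pow, mul_one, wgt, rpow_neg (one_add_rho_pos x).le,
    ← div_eq_mul_inv, le_div_iff₀ (rpow_pos_of_pos (one_add_rho_pos x) _)]
  exact (mul_le_of_le_one_left (rpow_nonneg (one_add_rho_pos x).le _) (cube_mem _ _).2).trans
    (rpow_le_rpow (one_add_rho_pos x).le (by linarith) (by linarith))

/-- Far along the axis the gradient in `S` is small somewhere. -/
theorem exists_small_radial (hinv : IsRotInvariant S P.u) (haS : P.a ∉ S) {α : ℝ} (hα : 0 ≤ α)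
    (hS : α ^ 2 < (S.card : ℝ) - 1) (hn : (m : ℝ) < 2 * α + 2) {M η : ℝ} (hM : 1 ≤ M) (hη : 0 < η)
    (T₀ : ℝ) : ∃ T, T₀ ≤ T ∧ ∫ x, cube M x * gsq (shift P T) S x ≤ η := by
  obtain ⟨k, C, hk, hC0, hC⟩ := exists_weighted_bound (m := m) hα hS
  have hM0 : 0 < M := by linarith
  set B : ℝ := (1 + ((m : ℝ) + 1) * (4 * M ^ 2)) ^ (α + 1)
  set V : ℝ := ((m : ℝ) + 1) * ((m : ℝ) + 3) ^ 2 * 8 ^ (m + 1)
  have hlim : Tendsto (fun N : ℕ => B * (C * V) * (4 * M) * (4 * M * N) ^ (-(2 * α + 2 - m))) atTop (𝓝 0) := by
    have h := ((tendsto_rpow_neg_atTop (show (0 : ℝ) < 2 * α + 2 - m by linarith)).comp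
      (tendsto_natCast_atTop_atTop.const_mul_atTop (show (0 : ℝ) < 4 * M by linarith))).const_mul
        (B * (C * V) * (4 * M))
    rw [mul_zero] at h
    exact h
  obtain ⟨N, hN1, hNs⟩ := ((eventually_ge_atTop 1).and (hlim.eventually (eventually_le_nhds hη))).exists
  have hNr : (1 : ℝ) ≤ N := by exact_mod_cast hN1
  set R : ℝ := 4 * M * N with hR
  have hR1 : 1 ≤ R := by nlinarith
  have hR0 : 0 < R := by linarith
  set Q := shift P (T₀ + R) with hQ
  have hQinv : IsRotInvariant S Q.u := inv_translate P hinv fun j hj => by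
    have : j ≠ P.a := fun h => haS (h ▸ hj)
    simp [ea, this]
  have hb := hC Q hQinv R hR1
  have hY : ∫ x, gsq Q S x * cube (2 * R) x ≤ V * R ^ (m + 1) := by
    refine (integral_mono (integrable_of_supp ((continuous_gsq Q).fun_mul (contDiff_cube _).continuous)
      (supp_cube (by linarith)).mul_left)
      ((integrable_of_supp (contDiff_cube _).continuous (supp_cube (by linarith))).const_mul
        (((m : ℝ) + 1) * ((m : ℝ) + 3) ^ 2)) fun x =>
      mul_le_mul_of_nonneg_right ((gsq_le_grad2 Q x).trans (grad2_le_const Q x)) (cube_mem _ x).1).trans ?_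
    rw [integral_const_mul]
    refine (mul_le_mul_of_nonneg_left (integral_cube_le (by linarith)) (by positivity)).trans_eq ?_
    simp only [V, show 4 * (2 * R) = 8 * R by ring, mul_pow]
    ring
  set e : Fin (m + 1) → ℝ := Pi.single P.a 1
  have ht : ∀ l : ℕ, ∫ x, cube M x * gsq (shift P (T₀ + R + 4 * M * l)) S x =
      ∫ x, gsq Q S x * cube M (x - (4 * M * (l : ℝ)) • e) := fun l => by
    rw [← integral_add_right_eq_self (μ := (volume : Measure (Fin (m + 1) → ℝ)))
      (fun x => gsq Q S x * cube M (x - (4 * M * (l : ℝ)) • e)) ((4 * M * (l : ℝ)) • e)]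
    refine integral_congr_ae (Eventually.of_forall fun x => ?_)
    simp only [gsq, hQ, shift, Sol.pd_translate, add_sub_cancel_right, ea, e, add_smul]
    rw [mul_comm]
    refine congrArg (· * _) (Finset.sum_congr rfl fun i _ => ?_)
    congr 2
    abel
  have iterm : ∀ l : ℕ, Integrable fun x => gsq Q S x * cube M (x - (4 * M * (l : ℝ)) • e) := fun l =>
    integrable_of_supp ((continuous_gsq Q).fun_mul
      ((contDiff_cube M).continuous.comp (continuous_id.sub continuous_const)))
      ((supp_cube (m := m) hM0).comp_homeomorph (Homeomorph.subRight _)).mul_left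
  have hsum : ∑ l ∈ Finset.range N, ∫ x, gsq Q S x * cube M (x - (4 * M * (l : ℝ)) • e) ≤
      B * (C / R ^ (2 * α + 2) * (V * R ^ (m + 1))) := by
    rw [← integral_finsetSum _ fun l _ => iterm l]
    refine le_trans ?_ (mul_le_mul_of_nonneg_left (hb.trans (mul_le_mul_of_nonneg_left hY (by positivity)))
      (by positivity))
    rw [← integral_const_mul]
    refine integral_mono_of_nonneg (Eventually.of_forall fun x => Finset.sum_nonneg fun l _ =>
        mul_nonneg (gsq_nonneg Q x) (cube_mem _ _).1) ?_ (Eventually.of_forall fun x => ?_)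
    · exact (integrable_of_supp ((continuous_gsq Q).fun_mul ((continuous_wgt α).fun_mul
        ((contDiff_cube R).continuous.pow _))) (((supp_cube hR0).comp_left
          (g := fun r : ℝ => r ^ (2 * k)) (zero_pow (by omega))).mul_left.mul_left)).const_mul B
    · show ∑ l ∈ Finset.range N, gsq Q S x * cube M (x - (4 * M * (l : ℝ)) • e) ≤
        B * (gsq Q S x * (wgt S α x * cube R x ^ (2 * k)))
      rw [← Finset.mul_sum, mul_left_comm B]
      exact mul_le_mul_of_nonneg_left (sum_translates_le hM0 hR0 le_rfl k hα haS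
        (by nlinarith) x) (gsq_nonneg Q x)
  obtain ⟨l, hl, hlle⟩ := Finset.exists_min_image (Finset.range N)
    (fun l => ∫ x, gsq Q S x * cube M (x - (4 * M * (l : ℝ)) • e)) ⟨0, Finset.mem_range.2 hN1⟩
  refine ⟨T₀ + R + 4 * M * l, by nlinarith [(l.cast_nonneg : (0 : ℝ) ≤ l)], ?_⟩
  rw [ht l]
  have h1 := (Finset.card_nsmul_le_sum _ _ _ hlle).trans hsum
  rw [Finset.card_range, nsmul_eq_mul] at h1
  refine le_trans ?_ hNs
  refine le_of_mul_le_mul_left (h1.trans (le_of_eq ?_)) (show (0 : ℝ) < N by linarith)
  rw [show -(2 * α + 2 - (m : ℝ)) = ((m + 1 : ℕ) : ℝ) - (2 * α + 2) - 1 by push_cast; ring,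
    rpow_sub_one hR0.ne', rpow_sub hR0, rpow_natCast, hR]
  field_simp

/-- The profile does not depend on a coordinate in `S`. -/
theorem top_indep_axis (hinv : IsRotInvariant S P.u) (haS : P.a ∉ S) {α : ℝ} (hα : 0 ≤ α)
    (hS : α ^ 2 < (S.card : ℝ) - 1) (hn : (m : ℝ) < 2 * α + 2) {i : Fin (m + 1)} (hi : i ∈ S)
    (c : ℝ) (y : Fin (m + 1) → ℝ) : top P (y + c • Pi.single i 1) = top P y := by
  classical
  set v : Fin (m + 1) → ℝ := c • Pi.single i 1 with hv
  have key : ∀ r : ℝ, 0 < r → ∫ x, cube r x * (top P (x + (y + v)) - top P (x + y)) = 0 := by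
    intro r hr
    set p := plateau (-r) r r with hp
    set Q := primitive (-r) r r with hQ
    set Pq := fun s => Q s - Q (s - c) with hPq
    set f : Fin (m + 1) → ℝ → ℝ := Function.update (fun _ => p) i Pq with hf
    have hPc : ContDiff ℝ 1 Pq :=
      (contDiff_primitive _ _ _).sub ((contDiff_primitive _ _ _).comp (contDiff_id.sub contDiff_const))
    have hPs : HasCompactSupport Pq :=
      HasCompactSupport.intro (isCompact_Icc (a := -(2 * r) - |c|) (b := 2 * r + |c|)) fun s hs => by
        rw [mem_Icc, not_and_or, not_le, not_le] at hs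
        simp only [hPq, hQ]
        rcases hs with h | h
        · rw [primitive_left hr (by linarith [abs_nonneg c]), primitive_left hr (by linarith [neg_abs_le c]),
            sub_zero]
        · rw [primitive_right hr (by linarith [abs_nonneg c]),
            primitive_right (s := s - c) hr (by linarith [le_abs_self c]), sub_self]
    have hfc : ∀ j, ContDiff ℝ 1 (f j) := fun j => by
      by_cases hj : j = i <;> simp [hf, hj, hPc, hp, contDiff_plateau]
    have hfs : ∀ j, HasCompactSupport (f j) := fun j => by
      by_cases hj : j = i <;> simp [hf, hj, hPs, hp, supp_plateau hr]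
    set Φ := weight f with hΦ
    have hΦc : ContDiff ℝ 1 Φ := contDiff_weight hfc
    have hΦs : HasCompactSupport Φ := supp_weight hfs
    have hdΦ : ∀ x, pd Φ i x = cube r x - cube r (x - v) := fun x => by
      have hd : deriv Pq = fun s => p s - p (s - c) := funext fun s =>
        ((hasDerivAt_primitive _ _ _ s).sub ((hasDerivAt_primitive (-r) r r (s - c)).comp_sub_const s c)).deriv
      rw [hΦ, pd_weight hfc]
      simp only [hf, Function.update_idem, Function.update_self, hd]
      simp only [weight, cube]
      rw [← Finset.mul_prod_erase _ _ (Finset.mem_univ i),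
        ← Finset.mul_prod_erase _ (fun j => plateau (-r) r r (x j)) (Finset.mem_univ i),
        ← Finset.mul_prod_erase _ (fun j => plateau (-r) r r ((x - v) j)) (Finset.mem_univ i),
        Function.update_self]
      have e1 : ∀ j ∈ Finset.univ.erase i,
          Function.update (fun _ => p) i (fun s => p s - p (s - c)) j (x j) = plateau (-r) r r (x j) :=
        fun j hj => by rw [Function.update_of_ne (Finset.ne_of_mem_erase hj)]
      have e2 : ∀ j ∈ Finset.univ.erase i, plateau (-r) r r ((x - v) j) = plateau (-r) r r (x j) :=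
        fun j hj => by simp [hv, Finset.ne_of_mem_erase hj]
      rw [Finset.prod_congr rfl e1, Finset.prod_congr rfl e2, hp]
      simp [hv]
      ring
    -- far translates
    set A := ∑ j, |y j| with hA
    set M : ℝ := 2 * r + |c| + A + 1 with hMd
    have hM : 1 ≤ M := by
      have : 0 ≤ A := Finset.sum_nonneg fun j _ => abs_nonneg _
      linarith [abs_nonneg c]
    obtain ⟨CΦ, hCΦ⟩ := hΦc.continuous.bounded_above_of_compact_support hΦs
    have hcov : ∀ x, |Φ x| ≤ CΦ * cube M (x + y) := fun x => by
      by_cases h0 : Φ x = 0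
      · rw [h0, abs_zero]
        have := (norm_nonneg _).trans (hCΦ 0)
        exact mul_nonneg this (cube_mem _ _).1
      have hin : ∀ j, |x j| ≤ 2 * r + |c| := fun j => by
        have hj := (Finset.prod_ne_zero_iff.1 h0) j (Finset.mem_univ j)
        by_contra hlt
        push Not at hlt
        by_cases hji : j = i
        · subst hji
          simp only [hf, Function.update_self, hPq, hQ] at hj
          rcases le_or_gt 0 (x j) with hx | hx
          · rw [abs_of_nonneg hx] at hlt
            rw [primitive_right hr (by linarith [abs_nonneg c]),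
              primitive_right (s := x j - c) hr (by linarith [le_abs_self c]), sub_self] at hj
            exact hj rfl
          · rw [abs_of_neg hx] at hlt
            rw [primitive_left hr (by linarith [abs_nonneg c]),
              primitive_left hr (by linarith [neg_abs_le c]), sub_zero] at hj
            exact hj rfl
        · simp only [hf, Function.update_of_ne hji, hp] at hj
          refine hj (plateau_eq_zero hr fun h => ?_)
          rcases abs_cases (x j) with ⟨e, -⟩ | ⟨e, -⟩ <;> rw [e] at hlt <;>
            linarith [h.1, h.2, abs_nonneg c]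
      rw [cube_eq_one (by linarith) fun j => ?_, mul_one]
      · exact hCΦ x
      · refine (abs_add_le _ _).trans ?_
        have := Finset.single_le_sum (f := fun j => |y j|) (fun j _ => abs_nonneg _) (Finset.mem_univ j)
        linarith [hin j]
    have hC0 : 0 ≤ CΦ := (norm_nonneg _).trans (hCΦ 0)
    set V := ∫ x, cube (m := m) M x
    have hseq : ∀ q : ℕ, ∃ T : ℝ, (q : ℝ) ≤ T ∧
        ∫ x, cube M x * |pd (shift P T).u i x| ≤ (1 + V) / ((q : ℝ) + 1) := fun q => by
      obtain ⟨T, hT, hle⟩ := exists_small_radial P hinv haS hα hS hn hM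
        (show (0 : ℝ) < 1 / ((q : ℝ) + 1) ^ 2 by positivity) q
      refine ⟨T, hT, ?_⟩
      have icube : Integrable (cube (m := m) M) :=
        integrable_of_supp (contDiff_cube _).continuous (supp_cube (by linarith))
      have iG : Integrable fun x => cube M x * gsq (shift P T) S x :=
        integrable_of_supp ((contDiff_cube _).continuous.fun_mul (continuous_gsq _))
          (supp_cube (by linarith)).mul_right
      refine (integral_mono (integrable_of_supp ((contDiff_cube _).continuous.fun_mul
        ((shift P T).contDiff_pd i).continuous.abs) (supp_cube (by linarith)).mul_right)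
        ((iG.const_mul (((q : ℝ) + 1) / 2)).add (icube.const_mul (1 / (2 * ((q : ℝ) + 1))))) fun x => ?_).trans ?_
      · simp only [Pi.add_apply]
        have h1 : pd (shift P T).u i x ^ 2 ≤ gsq (shift P T) S x :=
          Finset.single_le_sum (f := fun i => pd (shift P T).u i x ^ 2) (fun j _ => sq_nonneg _) hi
        set a := |pd (shift P T).u i x| with ha
        have h2 : a ≤ ((q : ℝ) + 1) / 2 * a ^ 2 + 1 / (2 * ((q : ℝ) + 1)) := by
          have e : ((q : ℝ) + 1) / 2 * a ^ 2 + 1 / (2 * ((q : ℝ) + 1)) - a
              = (((q : ℝ) + 1) * a - 1) ^ 2 / (2 * ((q : ℝ) + 1)) := by field_simp; ring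
          linarith [show 0 ≤ (((q : ℝ) + 1) * a - 1) ^ 2 / (2 * ((q : ℝ) + 1)) by positivity]
        have h3 : a ≤ ((q : ℝ) + 1) / 2 * gsq (shift P T) S x + 1 / (2 * ((q : ℝ) + 1)) := by
          refine h2.trans (add_le_add (mul_le_mul_of_nonneg_left ?_ (by positivity)) le_rfl)
          rw [ha, sq_abs]; exact h1
        have := mul_le_mul_of_nonneg_left h3 (cube_mem M x).1
        linarith
      · simp only [Pi.add_apply]
        rw [integral_add (iG.const_mul _) (icube.const_mul _), integral_const_mul, integral_const_mul]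
        have hV0 : 0 ≤ V := integral_nonneg fun x => (cube_mem M x).1
        refine (add_le_add (mul_le_mul_of_nonneg_left hle (by positivity)) le_rfl).trans ?_
        rw [le_div_iff₀ (by positivity)]
        field_simp
        linarith
    choose T hT hsmall using hseq
    have hTt : Tendsto T atTop atTop := tendsto_atTop_mono hT tendsto_natCast_atTop_atTop
    have l1 := tendsto_integral_top P (contDiff_cube r).continuous (supp_cube hr) (y + v) hTt
    have l2 := tendsto_integral_top P (contDiff_cube r).continuous (supp_cube hr) y hTt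
    have hbound : ∀ q, |(∫ x, cube r x * (shift P (T q)).u (x + (y + v))) -
        ∫ x, cube r x * (shift P (T q)).u (x + y)| ≤ CΦ * (1 + V) / ((q : ℝ) + 1) := fun q => by
      set U := (shift P (T q)).translate y with hU
      have hUc := U.contDiff_u
      have ics : ∀ w : Fin (m + 1) → ℝ, Integrable fun x => cube r (x - w) * U.u x := fun w =>
        integrable_of_supp
          (((contDiff_cube r).continuous.comp (continuous_id.sub continuous_const)).fun_mul hUc.continuous)
          ((supp_cube (m := m) hr).comp_homeomorph (Homeomorph.subRight w)).mul_right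
      have ic0 : Integrable fun x => cube r x * U.u x :=
        integrable_of_supp ((contDiff_cube r).continuous.fun_mul hUc.continuous) (supp_cube hr).mul_right
      have e1 : ∫ x, cube r x * (shift P (T q)).u (x + (y + v)) = ∫ x, cube r (x - v) * U.u x := by
        rw [← integral_add_right_eq_self (μ := (volume : Measure (Fin (m + 1) → ℝ)))
          (fun x => cube r (x - v) * U.u x) v]
        refine integral_congr_ae (Eventually.of_forall fun x => ?_)
        simp only [add_sub_cancel_right, hU, Sol.translate]
        rw [show x + v + y = x + (y + v) by abel]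
      have e2 : ∫ x, cube r x * (shift P (T q)).u (x + y) = ∫ x, cube r x * U.u x := rfl
      have e3 : (∫ x, cube r (x - v) * U.u x) - ∫ x, cube r x * U.u x = ∫ x, Φ x * pd U.u i x := by
        have h := ibp hUc hΦc hΦs i
        simp only [hdΦ, mul_sub] at h
        rw [integral_sub (by simpa only [mul_comm] using ic0) (by simpa only [mul_comm] using ics v)] at h
        simp only [mul_comm _ (U.u _), mul_comm (Φ _)]
        linarith
      rw [e1, e2, e3, mul_div_assoc]
      refine abs_integral_le_integral_abs.trans ?_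
      refine le_trans (integral_mono (integrable_of_supp (hΦc.continuous.fun_mul (U.contDiff_pd i).continuous)
        hΦs.mul_right).abs ((integrable_of_supp (((contDiff_cube M).continuous.comp
        (continuous_id.add continuous_const)).fun_mul (U.contDiff_pd i).continuous.abs)
        ((supp_cube (m := m) (show 0 < M by linarith)).comp_homeomorph
          (Homeomorph.addRight y)).mul_right).const_mul CΦ) fun x => ?_) ?_
      · rw [abs_mul, ← mul_assoc]
        exact mul_le_mul_of_nonneg_right (hcov x) (abs_nonneg _)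
      · rw [integral_const_mul]
        refine mul_le_mul_of_nonneg_left (le_trans (le_of_eq ?_) (hsmall q)) hC0
        rw [← integral_add_right_eq_self (μ := (volume : Measure (Fin (m + 1) → ℝ)))
          (fun x => cube M x * |pd (shift P (T q)).u i x|) y]
        exact integral_congr_ae (Eventually.of_forall fun x => by simp [hU, Sol.pd_translate, Function.comp])
    have hlim := (l1.sub l2).abs
    have h0 : |(∫ x, cube r x * top P (x + (y + v))) - ∫ x, cube r x * top P (x + y)| ≤ 0 := by
      refine le_of_tendsto_of_tendsto hlim ?_ (Eventually.of_forall hbound)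
      simpa [div_eq_mul_inv] using (tendsto_one_div_add_atTop_nhds_zero_nat (𝕜 := ℝ)).const_mul (CΦ * (1 + V))
    have it : ∀ w : Fin (m + 1) → ℝ, Integrable fun x => cube r x * top P (x + w) := fun w =>
      integrable_of_supp ((contDiff_cube r).continuous.fun_mul
        ((continuous_top P).comp (continuous_id.add continuous_const))) (supp_cube hr).mul_right
    simp only [mul_sub]
    rw [integral_sub (it (y + v)) (it y)]
    exact abs_nonpos_iff.1 h0
  by_contra hne
  set g := fun x => top P (x + (y + v)) - top P (x + y) with hg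
  have hgc : Continuous g := ((continuous_top P).comp (continuous_id.add continuous_const)).sub
    ((continuous_top P).comp (continuous_id.add continuous_const))
  have hg0 : 0 < g 0 ^ 2 := by
    have : g 0 ≠ 0 := by simpa [hg, sub_eq_zero] using hne
    positivity
  have hev : ∀ᶠ x in 𝓝 (0 : Fin (m + 1) → ℝ), 0 < g x * g 0 := by
    exact (hgc.fun_mul (continuous_const (y := g 0))).continuousAt.eventually
      (lt_mem_nhds (show 0 < g 0 * g 0 by rw [← pow_two]; exact hg0))
  obtain ⟨ε, hε, hball⟩ := Metric.eventually_nhds_iff.1 hev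
  set r := ε / 4 with hr
  have hr0 : 0 < r := by positivity
  have hnn : ∀ x, 0 ≤ cube r x * (g x * g 0) := fun x => by
    by_cases h : ∀ j, |x j| < 2 * r
    · refine mul_nonneg (cube_mem _ x).1 (hball ?_).le
      rw [dist_zero_right]
      refine lt_of_le_of_lt ((pi_norm_le_iff_of_nonneg (by positivity : (0 : ℝ) ≤ 2 * r)).2 fun j => (h j).le) ?_
      rw [hr]; linarith
    · push Not at h
      obtain ⟨j, hj⟩ := h
      rw [cube_eq_zero hr0 hj, zero_mul]
  have hpos : 0 < ∫ x, cube r x * (g x * g 0) := by
    refine ((contDiff_cube r).continuous.fun_mul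
      (hgc.fun_mul continuous_const)).integral_pos_of_hasCompactSupport_nonneg_nonzero
      (supp_cube hr0).mul_right hnn (x := 0) ?_
    rw [cube_eq_one hr0 fun j => by simp [hr0.le], one_mul, ← pow_two]
    exact hg0.ne'
  simp only [← mul_assoc, integral_mul_const, hg, key r hr0, zero_mul, lt_self_iff_false] at hpos

/-- The profile does not depend on the coordinates in `S`. -/
theorem top_indep (hinv : IsRotInvariant S P.u) (haS : P.a ∉ S) {α : ℝ} (hα : 0 ≤ α)
    (hS : α ^ 2 < (S.card : ℝ) - 1) (hn : (m : ℝ) < 2 * α + 2) {v : Fin (m + 1) → ℝ}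
    (hv : ∀ j, j ∉ S → v j = 0) (y : Fin (m + 1) → ℝ) : top P (y + v) = top P y := by
  classical
  have key : ∀ s : Finset (Fin (m + 1)), s ⊆ S → ∀ y,
      top P (y + ∑ j ∈ s, v j • (Pi.single j 1 : Fin (m + 1) → ℝ)) = top P y := by
    intro s
    induction s using Finset.induction_on with
    | empty => simp
    | insert j s hj ih =>
      intro hs y
      rw [Finset.insert_subset_iff] at hs
      rw [Finset.sum_insert hj, ← add_assoc, ih hs.2, top_indep_axis P hinv haS hα hS hn hs.1]
  have e : ∑ j ∈ S, v j • (Pi.single j 1 : Fin (m + 1) → ℝ) = v := by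
    ext l
    simp only [Finset.sum_apply, Pi.smul_apply, Pi.single_apply, smul_eq_mul, mul_ite, mul_one, mul_zero,
      Finset.sum_ite_eq]
    split_ifs with h
    · rfl
    · exact (hv l h).symm
  rw [← e]
  exact key S subset_rfl y

end Vale.Agent.P134.Sym
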