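import Vale.Agent.P134.Recur.Liouville
import Vale.Agent.P134.Sym.Limit

/-!
# P134: the energy of a symmetric solution grows like `R ^ (n - 1)`

Far along the axis the solution is close to a profile without the symmetric coordinates, and cells with
small defect exist there in every window, so the cells at the origin carry little energy as well.
-/

noncomputable section

open MeasureTheory Set Real Filter Topology

namespace Vale.Agent.P134.Sym

open Vale.Agent.P134.Periodic (pd continuous_pd)
open Vale.Agent.P134.Recur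
open Vale.Agent.P134.Slab (plateau contDiff_plateau plateau_mem plateau_eq_zero)

variable {m : ℕ} {S : Finset (Fin (m + 1))}

lemma abs_cubic_le {s : ℝ} (hs : |s| ≤ 1) : |s ^ 3 - s| ≤ 1 := by
  rw [show s ^ 3 - s = s * (s ^ 2 - 1) by ring, abs_mul]
  exact mul_le_one₀ hs (abs_nonneg _) (abs_le.2 ⟨by linarith [sq_nonneg s],
    by linarith [(sq_le_one_iff_abs_le_one s).2 hs]⟩)

/-- The gradients of two solutions are close in the square mean when the solutions are. -/
theorem exists_compare : ∃ C : ℝ, 0 ≤ C ∧ ∀ (P Q : Sol m) (R : ℝ), 1 ≤ R →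
    ∫ x, cube R x ^ 2 * ∑ i, (pd P.u i x - pd Q.u i x) ^ 2 ≤
      C * ∫ x, cube (2 * R) x * |P.u x - Q.u x| := by
  obtain ⟨Cc, hCc0, hCc⟩ := exists_cube_bound (m := m)
  refine ⟨((m : ℝ) + 1) * (2 * Cc * (2 * ((m : ℝ) + 3))) + 2, by positivity, fun P Q R hR => ?_⟩
  have hR0 : 0 < R := by linarith
  set ρ := fun x : Fin (m + 1) → ℝ => cube R x ^ 2 with hρ
  set v := fun x => P.u x - Q.u x with hv
  set φ := fun x => v x * ρ x with hφ
  have hρc : ContDiff ℝ 1 ρ := (contDiff_cube R).pow 2
  have hvc : ContDiff ℝ 1 v := P.contDiff_u.sub Q.contDiff_u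
  have hφc : ContDiff ℝ 1 φ := hvc.mul hρc
  have hρs : HasCompactSupport ρ := Sol.supp_sq (supp_cube hR0)
  have hφs : HasCompactSupport φ := hρs.mul_left
  have h1 := P.weak_eqn hφc hφs
  have h2 := Q.weak_eqn hφc hφs
  have iP : ∀ i, Integrable fun x => pd P.u i x * pd φ i x := fun i =>
    integrable_of_supp ((P.contDiff_pd i).continuous.fun_mul (continuous_pd hφc i)) (supp_pd hφs i).mul_left
  have iQ : ∀ i, Integrable fun x => pd Q.u i x * pd φ i x := fun i =>
    integrable_of_supp ((Q.contDiff_pd i).continuous.fun_mul (continuous_pd hφc i)) (supp_pd hφs i).mul_left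
  have cf : ∀ U : Sol m, Continuous fun x => U.u x ^ 3 - U.u x := fun U =>
    (U.contDiff_u.continuous.pow 3).sub U.contDiff_u.continuous
  have jf : ∀ U : Sol m, Integrable fun x => (U.u x ^ 3 - U.u x) * φ x := fun U =>
    integrable_of_supp ((cf U).fun_mul hφc.continuous) hφs.mul_left
  have iD : ∀ i, Integrable fun x => (pd P.u i x - pd Q.u i x) * pd φ i x := fun i =>
    integrable_of_supp (((P.contDiff_pd i).continuous.sub (Q.contDiff_pd i).continuous).fun_mul
      (continuous_pd hφc i)) (supp_pd hφs i).mul_left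
  have hid : (∫ x, ∑ i, (pd P.u i x - pd Q.u i x) * pd φ i x) =
      ∫ x, ((Q.u x ^ 3 - Q.u x) - (P.u x ^ 3 - P.u x)) * φ x := by
    simp only [sub_mul (Q.u _ ^ 3 - Q.u _)]
    rw [integral_sub (jf Q) (jf P), integral_finsetSum _ fun i _ => iD i]
    simp only [sub_mul (pd P.u _ _)]
    simp only [integral_sub (iP _) (iQ _), Finset.sum_sub_distrib]
    linarith
  set B : ℝ := ((m : ℝ) + 1) * (2 * Cc * (2 * ((m : ℝ) + 3))) with hB
  have hdρ : ∀ i x, |pd ρ i x| ≤ 2 * Cc * cube (2 * R) x := fun i x => by
    have e : pd ρ i x = 2 * cube R x * pd (cube R) i x := by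
      rw [hρ, pd, (((contDiff_cube R).differentiable one_ne_zero x).hasFDerivAt.pow 2).fderiv]
      simp [pd]
    rw [e, abs_mul, abs_mul, abs_two, abs_of_nonneg (cube_mem R x).1]
    have h3 : |pd (cube R) i x| ≤ Cc := ((hCc R hR0 i).1 x).trans (div_le_self hCc0 hR)
    calc 2 * cube R x * |pd (cube R) i x| ≤ 2 * cube (2 * R) x * Cc :=
          mul_le_mul (mul_le_mul_of_nonneg_left (cube_le_cube hR0 le_rfl x) zero_le_two) h3 (abs_nonneg _)
            (by linarith [(cube_mem (m := m) (2 * R) x).1])
      _ = _ := by ring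
  have hpt : ∀ x, ρ x * ∑ i, (pd P.u i x - pd Q.u i x) ^ 2 ≤
      (∑ i, (pd P.u i x - pd Q.u i x) * pd φ i x) + B * (cube (2 * R) x * |v x|) := fun x => by
    have e : ∀ i, pd φ i x = (pd P.u i x - pd Q.u i x) * ρ x + v x * pd ρ i x := fun i => by
      rw [pd, show φ = v * ρ from rfl, ((hvc.differentiable one_ne_zero x).hasFDerivAt.mul
        (hρc.differentiable one_ne_zero x).hasFDerivAt).fderiv]
      have : pd v i x = pd P.u i x - pd Q.u i x := by
        rw [pd, show v = P.u - Q.u from rfl, ((P.contDiff_u.differentiable one_ne_zero x).hasFDerivAt.sub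
          (Q.contDiff_u.differentiable one_ne_zero x).hasFDerivAt).fderiv]
        simp [pd]
      simp only [pd] at this ⊢
      simp [this]
      ring
    have hd : ∀ i, -(2 * ((m : ℝ) + 3) * (2 * Cc * cube (2 * R) x) * |v x|) ≤
        (pd P.u i x - pd Q.u i x) * (v x * pd ρ i x) := fun i => by
      refine (neg_le_neg ?_).trans (neg_abs_le _)
      rw [abs_mul, abs_mul, mul_comm |v x|, ← mul_assoc]
      refine mul_le_mul_of_nonneg_right (mul_le_mul ?_ (hdρ i x) (abs_nonneg _) (by positivity))
        (abs_nonneg _)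
      refine (abs_sub _ _).trans ?_
      have := P.abs_pd_u_le i x
      have := Q.abs_pd_u_le i x
      simp only [Sol.K] at *
      linarith
    have hs := Finset.card_nsmul_le_sum Finset.univ
      (fun i => (pd P.u i x - pd Q.u i x) * (v x * pd ρ i x)) _ fun i _ => hd i
    simp only [Finset.card_univ, Fintype.card_fin, nsmul_eq_mul] at hs
    push_cast at hs
    simp only [e, mul_add, Finset.sum_add_distrib, Finset.mul_sum]
    have e2 : ∑ i, (pd P.u i x - pd Q.u i x) * ((pd P.u i x - pd Q.u i x) * ρ x) =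
        ∑ i, ρ x * (pd P.u i x - pd Q.u i x) ^ 2 := Finset.sum_congr rfl fun i _ => by ring
    rw [hB, e2]
    linarith
  have iB : Integrable fun x => cube (2 * R) x * |v x| :=
    integrable_of_supp ((contDiff_cube _).continuous.fun_mul hvc.continuous.abs)
      (supp_cube (by linarith)).mul_right
  have iS : Integrable fun x => ∑ i, (pd P.u i x - pd Q.u i x) * pd φ i x :=
    integrable_finsetSum _ fun i _ => iD i
  have iL : Integrable fun x => ρ x * ∑ i, (pd P.u i x - pd Q.u i x) ^ 2 :=
    integrable_of_supp (hρc.continuous.fun_mul (continuous_finsetSum _ fun i _ =>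
      ((P.contDiff_pd i).continuous.sub (Q.contDiff_pd i).continuous).pow 2)) hρs.mul_right
  refine (integral_mono iL (iS.add (iB.const_mul B)) hpt).trans ?_
  simp only [Pi.add_apply]
  rw [integral_add iS (iB.const_mul B), integral_const_mul, hid, add_mul, add_comm]
  refine add_le_add le_rfl ((integral_mono ?_ (iB.const_mul 2) fun x => ?_).trans_eq (integral_const_mul _ _))
  · exact integrable_of_supp (((cf Q).sub (cf P)).fun_mul hφc.continuous) hφs.mul_left
  · refine (le_abs_self _).trans ?_
    rw [abs_mul]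
    refine mul_le_mul ((abs_sub _ _).trans (by linarith [abs_cubic_le (P.sol.bdd x), abs_cubic_le (Q.sol.bdd x)]))
      ?_ (abs_nonneg _) zero_le_two
    simp only [hφ, hρ]
    rw [abs_mul, abs_of_nonneg (sq_nonneg (cube R x)), mul_comm]
    exact mul_le_mul_of_nonneg_right ((pow_le_of_le_one (cube_mem R x).1 (cube_mem R x).2 two_ne_zero).trans
      (cube_le_cube hR0 le_rfl x)) (abs_nonneg _)

/-- The energy of a cube grows like `R ^ (n - 1)`. -/
theorem exists_energy (F : Frame m) (hinv : IsRotInvariant S F.P.u) (haS : F.P.a ∉ S) {α : ℝ}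
    (hα : 0 ≤ α) (hS : α ^ 2 < (S.card : ℝ) - 1) (hn : (m : ℝ) < 2 * α + 2)
    (hcov : ∀ j, j ∉ S → j = F.P.a ∨ j = F.b ∨ j = F.d) :
    ∃ E : ℝ, ∀ R : ℝ, 1 ≤ R → ∫ x, F.P.dens x * F.win 0 R R x ≤ E * R ^ m := by
  obtain ⟨A, hA0, hA⟩ := exists_cell_energy (m := m)
  obtain ⟨Cs, hCs0, hCs⟩ := Frame.exists_slide_bound (m := m)
  obtain ⟨C2, hC20, hC2⟩ := exists_compare (m := m)
  obtain ⟨Cc, hCc0, hCc⟩ := exists_cube_bound (m := m)
  set Z : ℝ := ((m : ℝ) + 1) * (Cc * (Cc * 8 ^ m))
  refine ⟨4 * (4 * (A * 2 ^ m + 1) + 2 * C2) + 2 * Z + Cs, fun R hR => ?_⟩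
  have hR0 : 0 < R := by linarith
  have hR2 : 0 < 2 * R := by linarith
  have hR4 : 0 < 4 * R := by linarith
  obtain ⟨K', hK'0, hK'⟩ := hA (2 * R) (by linarith)
  obtain ⟨L₁, hL₁⟩ := Frame.exists_small_cell (m := m) hR (show (0 : ℝ) < 1 / (K' + 1) by positivity)
  set L := max L₁ 0
  set M : ℝ := 8 * R + 4 * L + 1 with hMd
  have hL0 : 0 ≤ L := le_max_right _ _
  have hM0 : 0 < M := by positivity
  -- choose a far translate close to the profile
  obtain ⟨T, hT0, hT⟩ : ∃ T : ℝ, 0 ≤ T ∧
      ∫ x, cube M x * (top F.P x - (shift F.P T).u x) ≤ 1 / 2 := by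
    have l := tendsto_integral_top F.P (contDiff_cube (m := m) M).continuous (supp_cube hM0) 0
      (T := fun k : ℕ => (k : ℝ)) tendsto_natCast_atTop_atTop
    simp only [add_zero] at l
    have l2 := l.const_sub (∫ x, cube M x * top F.P x)
    rw [sub_self] at l2
    obtain ⟨k, hk⟩ := (l2.eventually (eventually_le_nhds (show (0 : ℝ) < 1 / 2 by norm_num))).exists
    refine ⟨k, k.cast_nonneg, le_of_eq_of_le ?_ hk⟩
    simp only [mul_sub]
    exact integral_sub (integrable_of_supp ((contDiff_cube M).continuous.fun_mul (continuous_top F.P))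
      (supp_cube hM0).mul_right) (integrable_of_supp ((contDiff_cube M).continuous.fun_mul
      (shift F.P (k : ℝ)).contDiff_u.continuous) (supp_cube hM0).mul_right)
  set Q := shift F.P T with hQ
  obtain ⟨z, hz0, hzL, hz⟩ := hL₁ (F.translate (T • ea F.P)) L (le_max_left _ _)
  have hzS : ∀ j, j ∉ S → z j = 0 := fun j hj => by
    rcases hcov j hj with rfl | rfl | rfl
    · exact hz0.1
    · exact hz0.2.1
    · exact hz0.2.2
  -- the cell at the far end
  have hcell : ∫ x, cube (2 * R) x ^ 2 * (Q.translate z).grad2 x ≤ 2 * (A * 2 ^ m + 1) * R ^ m := by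
    have h := hK' (Q.translate z)
    have e : ∫ x, cube (2 * (2 * R)) x ^ 2 * (Q.translate z).defect2 x =
        ∫ x, cube (4 * R) (x - z) ^ 2 * Q.defect2 x := by
      rw [Sol.integral_shift]
      simp only [Sol.defect2_translate, show 2 * (2 * R) = 4 * R by ring]
    rw [e] at h
    have hd : K' * ∫ x, cube (4 * R) (x - z) ^ 2 * Q.defect2 x ≤ 1 := by
      refine (mul_le_mul_of_nonneg_left hz hK'0).trans ?_
      rw [mul_one_div, div_le_one (by positivity)]
      linarith
    have hRm : 1 ≤ R ^ m := one_le_pow₀ hR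
    refine (integral_mono (integrable_of_supp (((contDiff_cube _).continuous.pow 2).fun_mul
      (Q.translate z).continuous_grad2) (Sol.supp_sq (supp_cube hR2)).mul_right)
      ((integrable_of_supp (((contDiff_cube _).continuous.pow 2).fun_mul
        (Q.translate z).contDiff_dens.continuous) (Sol.supp_sq (supp_cube hR2)).mul_right).const_mul 2)
      fun x => ?_).trans ?_
    · exact (mul_le_mul_of_nonneg_left ((Q.translate z).grad2_le_dens x) (sq_nonneg _)).trans_eq
        (by simp only [Pi.pow_apply]; ring)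
    simp only [Pi.pow_apply]
    rw [integral_const_mul, mul_assoc 2]
    refine mul_le_mul_of_nonneg_left ?_ zero_le_two
    rw [mul_pow 2 R] at h
    linarith
  -- closeness to the translate by `z`
  have hclose : ∫ x, cube (4 * R) x * |(Q.translate z).u x - Q.u x| ≤ 1 := by
    set g := fun x => top F.P x - Q.u x with hg
    have hgc : Continuous g := (continuous_top F.P).sub Q.contDiff_u.continuous
    have hg0 : ∀ x, 0 ≤ g x := fun x => sub_nonneg.2 (u_le_top F.P T x)
    have ig : Integrable fun x => cube M x * g x :=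
      integrable_of_supp ((contDiff_cube M).continuous.fun_mul hgc) (supp_cube hM0).mul_right
    have iz : Integrable fun x => cube (4 * R) x * g (x + z) :=
      integrable_of_supp ((contDiff_cube _).continuous.fun_mul
        (hgc.comp (continuous_id.add continuous_const))) (supp_cube hR4).mul_right
    have i0 : Integrable fun x => cube (4 * R) x * g x :=
      integrable_of_supp ((contDiff_cube _).continuous.fun_mul hgc) (supp_cube hR4).mul_right
    have b1 : ∫ x, cube (4 * R) x * g x ≤ 1 / 2 :=
      (integral_mono i0 ig fun x => mul_le_mul_of_nonneg_right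
        (cube_le_cube hR4 (by linarith) x) (hg0 x)).trans hT
    have b2 : ∫ x, cube (4 * R) x * g (x + z) ≤ 1 / 2 := by
      refine le_trans ?_ hT
      rw [← integral_add_right_eq_self (μ := (volume : Measure (Fin (m + 1) → ℝ)))
        (fun x => cube M x * (top F.P x - Q.u x)) z]
      refine integral_mono iz (ig.comp_add_right z) fun x => mul_le_mul_of_nonneg_right ?_ (hg0 _)
      by_cases h : ∃ j, 2 * (4 * R) ≤ |x j|
      · obtain ⟨j, hj⟩ := h
        rw [cube_eq_zero hR4 hj]
        exact (cube_mem _ _).1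
      push Not at h
      rw [cube_eq_one hM0 (x := x + z) fun j => (abs_add_le _ _).trans (by linarith [h j, hzL j])]
      exact (cube_mem _ _).2
    refine (integral_mono (integrable_of_supp ((contDiff_cube _).continuous.fun_mul
      ((Q.translate z).contDiff_u.continuous.sub Q.contDiff_u.continuous).abs) (supp_cube hR4).mul_right)
      (iz.add i0) fun x => ?_).trans ?_
    · simp only [Pi.add_apply, ← mul_add]
      refine mul_le_mul_of_nonneg_left ?_ (cube_mem _ x).1
      have hx : top F.P (x + z) = top F.P x := top_indep F.P hinv haS hα hS hn hzS x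
      simp only [Pi.sub_apply]
      rw [show (Q.translate z).u x - Q.u x = g x - g (x + z) by simp only [hg, Sol.translate, hx]; ring]
      exact (abs_sub _ _).trans_eq (by rw [abs_of_nonneg (hg0 _), abs_of_nonneg (hg0 _), add_comm])
    · simp only [Pi.add_apply]
      rw [integral_add iz i0]
      linarith
  -- the cell at the origin
  have hgrad : ∫ x, cube (2 * R) x ^ 2 * Q.grad2 x ≤ (4 * (A * 2 ^ m + 1) + 2 * C2) * R ^ m := by
    have hc := hC2 (Q.translate z) Q (2 * R) (by linarith)
    rw [show 2 * (2 * R) = 4 * R by ring] at hc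
    have hc' := hc.trans (mul_le_mul_of_nonneg_left hclose hC20)
    have i1 : Integrable fun x => cube (2 * R) x ^ 2 * (Q.translate z).grad2 x :=
      integrable_of_supp (((contDiff_cube _).continuous.pow 2).fun_mul (Q.translate z).continuous_grad2)
        (Sol.supp_sq (supp_cube hR2)).mul_right
    have i2 : Integrable fun x => cube (2 * R) x ^ 2 *
        ∑ i, (pd (Q.translate z).u i x - pd Q.u i x) ^ 2 :=
      integrable_of_supp (((contDiff_cube _).continuous.pow 2).fun_mul (continuous_finsetSum _ fun i _ =>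
        (((Q.translate z).contDiff_pd i).continuous.sub (Q.contDiff_pd i).continuous).pow 2))
        (Sol.supp_sq (supp_cube hR2)).mul_right
    refine (integral_mono (integrable_of_supp (((contDiff_cube _).continuous.pow 2).fun_mul
      Q.continuous_grad2) (Sol.supp_sq (supp_cube hR2)).mul_right)
      ((i1.const_mul 2).add (i2.const_mul 2)) fun x => ?_).trans ?_
    · simp only [Pi.add_apply, Sol.grad2, Finset.mul_sum, ← Finset.sum_add_distrib]
      refine Finset.sum_le_sum fun i _ => ?_
      have h : pd Q.u i x ^ 2 ≤ 2 * pd (Q.translate z).u i x ^ 2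
          + 2 * (pd (Q.translate z).u i x - pd Q.u i x) ^ 2 := by
        nlinarith [sq_nonneg (2 * pd (Q.translate z).u i x - pd Q.u i x)]
      exact (mul_le_mul_of_nonneg_left h (sq_nonneg _)).trans_eq (by ring)
    simp only [Pi.add_apply]
    rw [integral_add (i1.const_mul 2) (i2.const_mul 2), integral_const_mul, integral_const_mul]
    have hRm : 1 ≤ R ^ m := one_le_pow₀ hR
    nlinarith [mul_le_mul_of_nonneg_left hRm hC20]
  have hdir : ∫ x, ∑ i, pd (cube (m := m) (2 * R)) i x ^ 2 ≤ Z * R ^ m := by
    have isq : ∀ i, Integrable fun x : Fin (m + 1) → ℝ => pd (cube (2 * R)) i x ^ 2 := fun i =>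
      integrable_of_supp ((continuous_pd (contDiff_cube _) i).pow 2)
        (Sol.supp_sq (supp_pd (supp_cube hR2) i))
    rw [integral_finsetSum _ fun i _ => isq i]
    refine (Finset.sum_le_card_nsmul _ _ (Cc * (Cc * 8 ^ m) * R ^ m) fun i _ => ?_).trans
      (le_of_eq (by simp [Z]; ring))
    obtain ⟨h1, h2⟩ := hCc (2 * R) hR2 i
    refine (integral_mono (isq i)
      ((integrable_of_supp (continuous_pd (contDiff_cube _) i) (supp_pd (supp_cube hR2) i)).abs.const_mul
        Cc) fun x => ?_).trans ?_
    · rw [← sq_abs, sq]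
      exact mul_le_mul_of_nonneg_right ((h1 x).trans (div_le_self hCc0 (by linarith))) (abs_nonneg _)
    · rw [integral_const_mul]
      refine (mul_le_mul_of_nonneg_left h2 hCc0).trans (le_of_eq ?_)
      rw [show 4 * (2 * R) = 8 * R by ring, mul_pow 8 R]
      ring
  have hdens : ∫ x, cube (2 * R) x ^ 2 * Q.dens x ≤ (4 * (4 * (A * 2 ^ m + 1) + 2 * C2) + 2 * Z) * R ^ m := by
    have hpot := Q.potential_bound (contDiff_cube (2 * R)) (supp_cube hR2)
    have iG : Integrable fun x => cube (2 * R) x ^ 2 * Q.grad2 x :=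
      integrable_of_supp (((contDiff_cube _).continuous.pow 2).fun_mul Q.continuous_grad2)
        (Sol.supp_sq (supp_cube hR2)).mul_right
    have iW : Integrable fun x => cube (2 * R) x ^ 2 * (1 - Q.u x ^ 2) ^ 2 := integrable_of_supp
      (((contDiff_cube _).continuous.pow 2).fun_mul
        ((continuous_const.sub (Q.contDiff_u.continuous.pow 2)).pow 2))
      (Sol.supp_sq (supp_cube hR2)).mul_right
    have e : ∫ x, cube (2 * R) x ^ 2 * Q.dens x = 1 / 2 * (∫ x, cube (2 * R) x ^ 2 * Q.grad2 x)
        + 1 / 4 * ∫ x, cube (2 * R) x ^ 2 * (1 - Q.u x ^ 2) ^ 2 := by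
      rw [← integral_const_mul, ← integral_const_mul, ← integral_add (iG.const_mul _) (iW.const_mul _)]
      refine integral_congr_ae (Eventually.of_forall fun x => ?_)
      simp only [Sol.dens]
      ring
    rw [e]
    have hZR : 0 ≤ Z * R ^ m := by positivity
    linarith
  have hslide := hCs F T R R hT0 hR0 le_rfl
  have hwin : ∫ x, F.P.dens x * F.win T R R x ≤ ∫ x, cube (2 * R) x ^ 2 * Q.dens x := by
    rw [← integral_add_right_eq_self (μ := (volume : Measure (Fin (m + 1) → ℝ)))
      (fun x => F.P.dens x * F.win T R R x) (T • ea F.P)]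
    refine integral_mono ((integrable_of_supp (F.P.contDiff_dens.continuous.fun_mul
      (F.contDiff_win _ _ _).continuous) (F.supp_win hR0 hR0).mul_left).comp_add_right _)
      (integrable_of_supp (((contDiff_cube _).continuous.pow 2).fun_mul Q.contDiff_dens.continuous)
        (Sol.supp_sq (supp_cube hR2)).mul_right) fun x => ?_
    show F.P.dens (x + T • ea F.P) * F.win T R R (x + T • ea F.P) ≤ _
    rw [hQ, shift, Sol.dens_translate, mul_comm (cube _ _ ^ 2)]
    refine mul_le_mul_of_nonneg_left ?_ (F.P.dens_nonneg _)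
    by_cases h : ∀ j, |x j| ≤ 2 * R
    · rw [cube_eq_one hR2 h, one_pow]
      exact (F.win_mem _ _ _ _).2
    push Not at h
    obtain ⟨j, hj⟩ := h
    refine le_of_eq_of_le (Finset.prod_eq_zero (Finset.mem_univ j) ?_) (sq_nonneg _)
    have hc : ∀ c s : ℝ, s = x j + c → plateau (c - R) (c + R) R s = 0 := fun c s hs =>
      plateau_eq_zero hR0 fun h' => by
        rcases abs_cases (x j) with ⟨e, -⟩ | ⟨e, -⟩ <;> rw [e] at hj <;> linarith [h'.1, h'.2]
    have h0 := hc 0 (x j) (by ring)
    rw [zero_sub, zero_add] at h0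
    simp only [Frame.tri]
    by_cases ha : j = F.P.a
    · simp only [if_pos ha]
      exact hc T _ (by subst ha; simp [ea])
    · have e : (x + T • ea F.P) j = x j := by simp [ea, ha]
      rw [e]
      by_cases hb : j = F.b
      · simp only [if_neg ha, if_pos hb]; exact h0
      by_cases hd : j = F.d
      · simp only [if_neg ha, if_neg hb, if_pos hd]; exact h0
      · simp only [if_neg ha, if_neg hb, if_neg hd]; exact h0
  have hkm : R ^ 2 * R ^ F.k = R ^ m := by
    rw [← pow_add]; congr 1; have := F.k_add_three; omega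
  rw [mul_assoc Cs, hkm] at hslide
  linarith

end Vale.Agent.P134.Sym
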