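import Vale.Agent.P134.Recur.Energy
import Vale.Agent.P134.Sym.Defs

/-!
# P134: stability gives a weighted bound for the radial derivative of a symmetric solution
-/

noncomputable section

open MeasureTheory Set Real

namespace Vale.Agent.P134.Sym

open Vale.Agent.P134.Periodic (pd continuous_pd)
open Vale.Agent.P134.Recur

variable {m : ℕ} (P : Sol m) {S : Finset (Fin (m + 1))}

/-- The squared radius in the coordinates of `S`. -/
def rho (S : Finset (Fin (m + 1))) (x : Fin (m + 1) → ℝ) : ℝ := ∑ j ∈ S, x j ^ 2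

lemma rho_nonneg (S : Finset (Fin (m + 1))) (x : Fin (m + 1) → ℝ) : 0 ≤ rho S x :=
  Finset.sum_nonneg fun _ _ => sq_nonneg _

lemma contDiff_rho : ContDiff ℝ 1 (rho (m := m) S) :=
  ContDiff.sum fun j _ => (contDiff_apply ℝ ℝ j).pow 2

/-- The squared gradient in the coordinates of `S`. -/
def gsq (S : Finset (Fin (m + 1))) (x : Fin (m + 1) → ℝ) : ℝ := ∑ i ∈ S, pd P.u i x ^ 2

lemma gsq_nonneg (x : Fin (m + 1) → ℝ) : 0 ≤ gsq P S x := Finset.sum_nonneg fun _ _ => sq_nonneg _

lemma gsq_le_grad2 (x : Fin (m + 1) → ℝ) : gsq P S x ≤ P.grad2 x :=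
  Finset.sum_le_sum_of_subset_of_nonneg (Finset.subset_univ S) fun _ _ _ => sq_nonneg _

lemma continuous_gsq : Continuous (gsq P S) :=
  continuous_finsetSum _ fun i _ => (P.contDiff_pd i).continuous.pow 2

lemma grad2_le_const (x : Fin (m + 1) → ℝ) : P.grad2 x ≤ ((m : ℝ) + 1) * ((m : ℝ) + 3) ^ 2 := by
  refine (Finset.sum_le_card_nsmul _ _ (P.K ^ 2) fun i _ => ?_).trans
    (le_of_eq (by simp [Sol.K]))
  exact sq_le_sq' (abs_le.1 (P.abs_pd_u_le i x)).1 (abs_le.1 (P.abs_pd_u_le i x)).2

/-- Translations along the other axes keep the invariance. -/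
lemma inv_translate (hinv : IsRotInvariant S P.u) {z : Fin (m + 1) → ℝ} (hz : ∀ j ∈ S, z j = 0) :
    IsRotInvariant S (P.translate z).u := fun x y h1 h2 =>
  hinv (x + z) (y + z) (fun j hj => by simp [h1 j hj]) (by
    have e : ∀ w : Fin (m + 1) → ℝ, ∑ j ∈ S, (w + z) j ^ 2 = ∑ j ∈ S, w j ^ 2 := fun w =>
      Finset.sum_congr rfl fun j hj => by simp [hz j hj]
    rw [e, e, h2])

/-- The gradient in `S` is radial. -/
lemma rot_rel (hinv : IsRotInvariant S P.u) {i j : Fin (m + 1)} (hi : i ∈ S) (hj : j ∈ S)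
    (x : Fin (m + 1) → ℝ) : pd P.u i x * x j = pd P.u j x * x i := by
  rcases eq_or_ne i j with rfl | hij
  · rfl
  set e : Fin (m + 1) → Fin (m + 1) → ℝ := fun i => Pi.single i 1
  set γ : ℝ → Fin (m + 1) → ℝ := fun s => x + (x i * (cos s - 1) - x j * sin s) • e i
    + (x i * sin s + x j * (cos s - 1)) • e j with hγ
  have hconst : ∀ s, P.u (γ s) = P.u x := fun s => by
    refine hinv _ _ (fun k hk => ?_) ?_
    · have hki : k ≠ i := fun h => hk (h ▸ hi)
      have hkj : k ≠ j := fun h => hk (h ▸ hj)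
      simp [hγ, e, hki, hkj]
    · rw [← Finset.sum_erase_add _ _ hi, ← Finset.sum_erase_add _ _ hi,
        ← Finset.sum_erase_add _ _ (Finset.mem_erase.2 ⟨hij.symm, hj⟩),
        ← Finset.sum_erase_add _ (fun k => x k ^ 2) (Finset.mem_erase.2 ⟨hij.symm, hj⟩)]
      have h0 : ∑ k ∈ (S.erase i).erase j, γ s k ^ 2 = ∑ k ∈ (S.erase i).erase j, x k ^ 2 :=
        Finset.sum_congr rfl fun k hk => by
          simp only [Finset.mem_erase] at hk
          simp [hγ, e, hk.1, hk.2.1]
      rw [h0]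
      simp only [hγ, e, Pi.add_apply, Pi.smul_apply, Pi.single_eq_same, Pi.single_eq_of_ne hij,
        Pi.single_eq_of_ne hij.symm, smul_eq_mul, mul_one, mul_zero, add_zero]
      linear_combination (x i ^ 2 + x j ^ 2) * sin_sq_add_cos_sq s
  have hd : HasDerivAt γ ((-x j) • e i + x i • e j) 0 := by
    have h1 := ((hasDerivAt_cos 0).sub_const 1 |>.const_mul (x i)).fun_sub ((hasDerivAt_sin 0).const_mul (x j))
    have h2 := ((hasDerivAt_sin 0).const_mul (x i)).fun_add ((hasDerivAt_cos 0).sub_const 1 |>.const_mul (x j))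
    refine (((h1.smul_const (e i)).const_add x).fun_add (h2.smul_const (e j))).congr_deriv ?_
    simp
  have h0 : γ 0 = x := by simp [hγ]
  have h := ((P.contDiff_u.differentiable one_ne_zero (γ 0)).hasFDerivAt.comp_hasDerivAt 0 hd).unique
    ((hasDerivAt_const (0 : ℝ) (P.u x)).congr_of_eventuallyEq (Filter.Eventually.of_forall hconst))
  rw [h0, map_add, map_smul, map_smul, smul_eq_mul, smul_eq_mul] at h
  simp only [pd, e] at h ⊢
  linarith

/-- On the axis of the symmetry the gradient in `S` vanishes. -/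
lemma gsq_eq_zero (hinv : IsRotInvariant S P.u) {x : Fin (m + 1) → ℝ} (hx : rho S x = 0) :
    gsq P S x = 0 := by
  have hx0 : ∀ j ∈ S, x j = 0 := fun j hj =>
    sq_eq_zero_iff.1 ((Finset.sum_eq_zero_iff_of_nonneg fun _ _ => sq_nonneg _).1 hx j hj)
  refine Finset.sum_eq_zero fun i hi => sq_eq_zero_iff.2 ?_
  have he : ∀ s : ℝ, P.u (x + s • Pi.single i 1) = P.u (x + (-s) • Pi.single i 1) := fun s => by
    refine hinv _ _ (fun k hk => ?_) (Finset.sum_congr rfl fun k hk => ?_)
    · have : k ≠ i := fun h => hk (h ▸ hi)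
      simp [this]
    · by_cases h : k = i
      · subst h; simp [hx0 _ hk]
      · simp [h]
  have h1 := Slab.hasDerivAt_line P.contDiff_u x i 1 0
  have h2 := Slab.hasDerivAt_line P.contDiff_u x i (-1) 0
  simp only [one_mul, mul_zero, zero_smul, add_zero, neg_mul] at h1 h2
  rw [show (fun t : ℝ => P.u (x + t • Pi.single i 1)) = _ from funext he] at h1
  linarith [h1.unique h2]

lemma supp_mul_pd (i : Fin (m + 1)) {η : (Fin (m + 1) → ℝ) → ℝ} (hs : HasCompactSupport η) :
    HasCompactSupport fun x => pd P.u i x * η x := hs.mul_left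

/-- Stability in the form of Sternberg and Zumbrun, for the gradient in `S`. -/
theorem radial_stability (hinv : IsRotInvariant S P.u) {η : (Fin (m + 1) → ℝ) → ℝ}
    (hη : ContDiff ℝ 1 η) (hs : HasCompactSupport η) :
    ((S.card : ℝ) - 1) * ∫ x, gsq P S x * η x ^ 2 / (1 + rho S x) ≤
      ∫ x, gsq P S x * ∑ k, pd η k x ^ 2 := by
  rcases S.eq_empty_or_nonempty with rfl | hne
  · simp [gsq]
  have hS1 : (1 : ℝ) ≤ S.card := by exact_mod_cast hne.card_pos
  set w := pd P.u P.a with hw
  have hwc : ContDiff ℝ 1 w := P.contDiff_pd P.a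
  have hw0 : ∀ x, w x ≠ 0 := fun x => (P.sol.mono x).ne'
  set φ : Fin (m + 1) → (Fin (m + 1) → ℝ) → ℝ := fun i x => pd P.u i x * η x with hφ
  set N : Fin (m + 1) → Fin (m + 1) → (Fin (m + 1) → ℝ) → ℝ :=
    fun i k x => φ i x * pd w k x / w x - pd (φ i) k x with hN
  have hφc : ∀ i, ContDiff ℝ 1 (φ i) := fun i => (P.contDiff_pd i).mul hη
  have hφs : ∀ i, HasCompactSupport (φ i) := fun i => supp_mul_pd P i hs
  have ig : Integrable fun x => gsq P S x * ∑ k, pd η k x ^ 2 := by
    simp only [Finset.mul_sum]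
    exact integrable_finsetSum _ fun k _ => integrable_of_supp
      ((continuous_gsq P).fun_mul ((continuous_pd hη k).pow 2))
      (Sol.supp_sq (supp_pd hs k)).mul_left
  have iN : ∀ i k, Integrable fun x => N i k x ^ 2 := fun i k =>
    integrable_of_supp (((((hφc i).continuous.fun_mul (continuous_pd hwc k)).div hwc.continuous hw0).sub
      (continuous_pd (hφc i) k)).pow 2)
      (Sol.supp_sq (HasCompactSupport.sub (by simp only [mul_div_assoc]; exact (hφs i).mul_right)
        (supp_pd (hφs i) k)))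
  have hid : ∀ i, ∫ x, ∑ k, N i k x ^ 2 = ∫ x, pd P.u i x ^ 2 * ∑ k, pd η k x ^ 2 := fun i => by
    have h1 := P.stability (hφc i) (hφs i)
    have hts : HasCompactSupport fun x => pd P.u i x * (η x * η x) :=
      (hs.mul_right (f' := η)).mul_left
    have hte : ContDiff ℝ 1 fun x => pd P.u i x * (η x * η x) := (P.contDiff_pd i).mul (hη.mul hη)
    have h2 := P.weak_deriv i hte hts
    have hpt : ∀ x, (∑ k, pd (φ i) k x ^ 2) + (3 * P.u x ^ 2 - 1) * φ i x ^ 2 =
        (∑ k, pd (pd P.u i) k x * pd (fun y => pd P.u i y * (η y * η y)) k x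
          + (3 * P.u x ^ 2 - 1) * pd P.u i x * (pd P.u i x * (η x * η x)))
        + pd P.u i x ^ 2 * ∑ k, pd η k x ^ 2 := fun x => by
      rw [Finset.mul_sum, add_right_comm, ← Finset.sum_add_distrib]
      congr 1
      · refine Finset.sum_congr rfl fun k _ => ?_
        have hdu := ((P.contDiff_pd i).differentiable one_ne_zero x).hasFDerivAt
        have hdη := (hη.differentiable one_ne_zero x).hasFDerivAt
        have e1 : pd (φ i) k x = pd (pd P.u i) k x * η x + pd P.u i x * pd η k x := by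
          rw [pd, show φ i = pd P.u i * η from rfl, (hdu.mul hdη).fderiv]
          simp [pd]
          ring
        have e2 : pd (fun y => pd P.u i y * (η y * η y)) k x
            = pd (pd P.u i) k x * (η x * η x) + 2 * pd P.u i x * η x * pd η k x := by
          rw [pd, show (fun y => pd P.u i y * (η y * η y)) = pd P.u i * (η * η) from rfl,
            (hdu.mul (hdη.mul hdη)).fderiv]
          simp [pd]
          ring
        rw [e1, e2]
        ring
      · simp only [hφ]; ring
    have j1 : ∀ k, Integrable fun x => pd (pd P.u i) k x * pd (fun y => pd P.u i y * (η y * η y)) k x :=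
      fun k => integrable_of_supp ((continuous_pd (P.contDiff_pd i) k).fun_mul (continuous_pd hte k))
        (supp_pd hts k).mul_left
    have j2 : Integrable fun x => (3 * P.u x ^ 2 - 1) * pd P.u i x * (pd P.u i x * (η x * η x)) :=
      integrable_of_supp ((((continuous_const.mul (P.contDiff_u.continuous.pow 2)).sub
        continuous_const).fun_mul (P.contDiff_pd i).continuous).fun_mul hte.continuous) hts.mul_left
    have j3 : Integrable fun x => pd P.u i x ^ 2 * ∑ k, pd η k x ^ 2 := by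
      simp only [Finset.mul_sum]
      exact integrable_finsetSum _ fun k _ => integrable_of_supp
        (((P.contDiff_pd i).continuous.pow 2).fun_mul ((continuous_pd hη k).pow 2))
        (Sol.supp_sq (supp_pd hs k)).mul_left
    simp only [hpt] at h1
    have j12 : Integrable fun x => (∑ k, pd (pd P.u i) k x * pd (fun y => pd P.u i y * (η y * η y)) k x)
        + (3 * P.u x ^ 2 - 1) * pd P.u i x * (pd P.u i x * (η x * η x)) :=
      (integrable_finsetSum _ fun k _ => j1 k).add j2
    rw [integral_add j12 j3,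
      integral_add (integrable_finsetSum _ fun k _ => j1 k) j2, integral_finsetSum _ fun k _ => j1 k] at h1
    simp only [hN]
    linarith
  have hpt : ∀ x, ((S.card : ℝ) - 1) * (gsq P S x * η x ^ 2 / (1 + rho S x))
      ≤ ∑ i ∈ S, ∑ k, N i k x ^ 2 := fun x => by
    rcases eq_or_lt_of_le (rho_nonneg S x) with h0 | h0
    · rw [gsq_eq_zero P hinv h0.symm]
      simp only [zero_mul, zero_div, mul_zero]
      exact Finset.sum_nonneg fun i _ => Finset.sum_nonneg fun k _ => sq_nonneg _
    refine le_trans ?_ (Finset.sum_le_sum fun i _ => Finset.sum_le_sum_of_subset_of_nonneg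
      (Finset.subset_univ S) fun k _ _ => sq_nonneg _)
    set q := (∑ j ∈ S, x j * φ j x) / rho S x with hq
    have hrel : ∀ y, ∀ i ∈ S, ∀ j ∈ S, φ i y * y j = φ j y * y i := fun y i hi j hj => by
      simp only [hφ]
      rw [mul_right_comm, rot_rel P hinv hi hj, mul_right_comm]
    have hφq : ∀ i ∈ S, φ i x = x i * q := fun i hi => by
      rw [hq, mul_div_assoc', eq_div_iff h0.ne', rho, Finset.mul_sum, Finset.mul_sum]
      exact Finset.sum_congr rfl fun j hj => by linear_combination x j * hrel x i hi j hj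
    have hD : ∀ i ∈ S, ∀ j ∈ S, ∀ k, pd (φ i) k x * x j + (if k = j then φ i x else 0)
        = pd (φ j) k x * x i + (if k = i then φ j x else 0) := fun i hi j hj k => by
      have d1 : ∀ i j, pd (fun y => φ i y * y j) k x = pd (φ i) k x * x j + (if k = j then φ i x else 0) :=
        fun i j => by
          rw [pd, show (fun y => φ i y * y j) = φ i * (fun y => y j) from rfl,
            (((hφc i).differentiable one_ne_zero x).hasFDerivAt.mul
              (hasFDerivAt_apply (𝕜 := ℝ) (F' := fun _ : Fin (m + 1) => ℝ) j x)).fderiv]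
          simp [pd, Pi.single_apply, eq_comm]
          ring
      rw [← d1, ← d1, show (fun y => φ i y * y j) = fun y => φ j y * y i from
        funext fun y => hrel y i hi j hj]
    set M : Fin (m + 1) → Fin (m + 1) → ℝ := fun i k => N i k x + if k = i then q else 0 with hM
    set c : Fin (m + 1) → ℝ := fun k => (∑ j ∈ S, x j * M j k) / rho S x with hc
    have hMc : ∀ i ∈ S, ∀ k, M i k = x i * c k := fun i hi k => by
      rw [hc, mul_div_assoc', eq_div_iff h0.ne', rho, Finset.mul_sum, Finset.mul_sum]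
      refine Finset.sum_congr rfl fun j hj => ?_
      suffices M i k * x j = M j k * x i by linear_combination x j * this
      have h1 := hD i hi j hj k
      simp only [hM, hN]
      have hz : φ i x * x j = φ j x * x i := hrel x i hi j hj
      have e : (φ i x * pd w k x / w x) * x j = (φ j x * pd w k x / w x) * x i := by
        linear_combination (pd w k x / w x) * hz
      have e2 : (if k = i then q else 0) * x j - (if k = j then φ i x else 0) * (-1) * 0
          = (if k = i then φ j x else 0) := by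
        split_ifs <;> simp [hφq j hj, mul_comm]
      have e3 : (if k = j then q else 0) * x i = (if k = j then φ i x else 0) := by
        split_ifs <;> simp [hφq i hi, mul_comm]
      simp only [mul_zero, sub_zero] at e2
      linear_combination e - h1 + e2 - e3
    have hsum : ∑ i ∈ S, ∑ k ∈ S, N i k x ^ 2
        = rho S x * (∑ k ∈ S, c k ^ 2) - 2 * q * (∑ i ∈ S, x i * c i) + S.card * q ^ 2 := by
      have e : ∀ i ∈ S, ∑ k ∈ S, N i k x ^ 2
          = x i ^ 2 * (∑ k ∈ S, c k ^ 2) - 2 * q * (x i * c i) + q ^ 2 := fun i hi => by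
        have e1 : ∀ k, N i k x ^ 2 = x i ^ 2 * c k ^ 2 + if k = i then q ^ 2 - 2 * q * (x i * c i) else 0 :=
          fun k => by
            have := hMc i hi k
            simp only [hM] at this
            split_ifs at this ⊢ with h
            · subst h; rw [eq_sub_of_add_eq this]; ring
            · rw [add_zero] at this; rw [this]; ring
        simp only [e1, Finset.sum_add_distrib, ← Finset.mul_sum, Finset.sum_ite_eq', if_pos hi]
        ring
      rw [Finset.sum_congr rfl e, Finset.sum_add_distrib, Finset.sum_sub_distrib, ← Finset.sum_mul,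
        ← Finset.mul_sum, Finset.sum_const, nsmul_eq_mul, rho]
    have hcs : (∑ i ∈ S, x i * c i) ^ 2 ≤ rho S x * ∑ k ∈ S, c k ^ 2 :=
      Finset.sum_mul_sq_le_sq_mul_sq S x c
    have hG : gsq P S x * η x ^ 2 = q ^ 2 * rho S x := by
      rw [gsq, rho, Finset.sum_mul, Finset.mul_sum]
      exact Finset.sum_congr rfl fun i hi => by
        rw [← mul_pow, show pd P.u i x * η x = x i * q from hφq i hi]; ring
    have hle : gsq P S x * η x ^ 2 / (1 + rho S x) ≤ q ^ 2 := by
      rw [hG, div_le_iff₀ (by linarith)]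
      nlinarith [sq_nonneg q]
    rw [hsum]
    nlinarith [mul_le_mul_of_nonneg_left hle (sub_nonneg.2 hS1),
      sq_nonneg ((∑ i ∈ S, x i * c i) - q)]
  have il : Integrable fun x => gsq P S x * η x ^ 2 / (1 + rho S x) :=
    integrable_of_supp (((continuous_gsq P).fun_mul (hη.continuous.pow 2)).div
      (continuous_const.add contDiff_rho.continuous) fun x =>
        (show (0 : ℝ) < 1 + rho S x by linarith [rho_nonneg S x]).ne')
      (by simp only [div_eq_mul_inv]; exact ((Sol.supp_sq hs).mul_left).mul_right)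
  rw [← integral_const_mul]
  refine (integral_mono (il.const_mul _) (integrable_finsetSum _ fun i _ =>
    integrable_finsetSum _ fun k _ => iN i k) hpt).trans (le_of_eq ?_)
  have j4 : ∀ i, Integrable fun x => pd P.u i x ^ 2 * ∑ k, pd η k x ^ 2 := fun i => by
    simp only [Finset.mul_sum]
    exact integrable_finsetSum _ fun k _ => integrable_of_supp
      (((P.contDiff_pd i).continuous.pow 2).fun_mul ((continuous_pd hη k).pow 2))
      (Sol.supp_sq (supp_pd hs k)).mul_left
  rw [integral_finsetSum _ fun i _ => integrable_finsetSum _ fun k _ => iN i k]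
  simp only [hid]
  rw [← integral_finsetSum _ fun i _ => j4 i]
  simp only [gsq, Finset.sum_mul]

/-- The weight `(1 + ρ) ^ (-(α + 1))`. -/
def wgt (S : Finset (Fin (m + 1))) (α : ℝ) (x : Fin (m + 1) → ℝ) : ℝ := (1 + rho S x) ^ (-(α + 1))

lemma one_add_rho_pos (x : Fin (m + 1) → ℝ) : 0 < 1 + rho S x := by linarith [rho_nonneg S x]

lemma continuous_wgt (α : ℝ) : Continuous (wgt (m := m) S α) :=
  (continuous_const.add contDiff_rho.continuous).rpow_const fun x => Or.inl (one_add_rho_pos x).ne'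

lemma wgt_pos (α : ℝ) (x : Fin (m + 1) → ℝ) : 0 < wgt S α x := rpow_pos_of_pos (one_add_rho_pos x) _

lemma cube_le_cube {R R' : ℝ} (hR : 0 < R) (hR' : 2 * R ≤ R') (x : Fin (m + 1) → ℝ) :
    cube R x ≤ cube R' x := by
  by_cases h : ∃ j, 2 * R ≤ |x j|
  · obtain ⟨j, hj⟩ := h
    rw [cube_eq_zero hR hj]
    exact (cube_mem R' x).1
  push Not at h
  rw [cube_eq_one (x := x) (show 0 < R' by linarith) fun j => by linarith [h j]]
  exact (cube_mem R x).2

lemma sum_sq_pd_rpow_le {α : ℝ} (x : Fin (m + 1) → ℝ) :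
    ∑ i, pd (fun y => (1 + rho S y) ^ (-α / 2)) i x ^ 2 ≤ α ^ 2 * wgt S α x := by
  have hb := one_add_rho_pos (S := S) x
  have hr : HasFDerivAt (fun y => 1 + rho S y) (∑ j ∈ S, (2 * x j) •
      ContinuousLinearMap.proj (R := ℝ) (φ := fun _ : Fin (m + 1) => ℝ) j) x := by
    refine (HasFDerivAt.fun_sum fun j _ => ?_).const_add 1
    simpa using (hasFDerivAt_apply (𝕜 := ℝ) (F' := fun _ : Fin (m + 1) => ℝ) j x).pow 2
  have e : ∀ i, pd (fun y => (1 + rho S y) ^ (-α / 2)) i x ^ 2
      = α ^ 2 * ((1 + rho S x) ^ (-α / 2 - 1)) ^ 2 * (if i ∈ S then x i ^ 2 else 0) := fun i => by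
    rw [pd, (hr.rpow_const (Or.inl hb.ne')).fderiv]
    simp [Pi.single_apply]
    split_ifs <;> ring
  simp only [e, ← Finset.mul_sum, Finset.sum_ite_mem, Finset.univ_inter]
  have e2 : ((1 + rho S x) ^ (-α / 2 - 1)) ^ 2 * (1 + rho S x) = wgt S α x := by
    rw [wgt, ← rpow_natCast _ 2, ← rpow_mul hb.le, ← rpow_add_one hb.ne']
    congr 1; push_cast; ring
  rw [show ∑ j ∈ S, x j ^ 2 = rho S x from rfl, ← e2, mul_assoc]
  gcongr
  linarith

lemma rpow_neg_half_sq (α : ℝ) (x : Fin (m + 1) → ℝ) :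
    ((1 + rho S x) ^ (-α / 2)) ^ 2 = wgt S α x * (1 + rho S x) := by
  rw [wgt, ← rpow_natCast _ 2, ← rpow_mul (one_add_rho_pos x).le, ← rpow_add_one (one_add_rho_pos x).ne']
  congr 1; push_cast; ring

/-- Either the weight absorbs the derivative of the cut-off or that term is of low order. -/
lemma absorb {α θ R z b : ℝ} {j : ℕ} (hα : 0 ≤ α) (hθ : 0 < θ) (hR : 0 < R) (hz : 0 ≤ z) (hz1 : z ≤ 1)
    (hb : 0 < b) (hj : α ≤ j) (hj1 : 1 ≤ j) :
    b ^ (-(α + 1)) * b * z ^ (2 * j) / R ^ 2 ≤
      θ * (b ^ (-(α + 1)) * z ^ (2 * (j + 1))) + θ ^ (-α) / R ^ (2 * α + 2) := by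
  have h0 : 0 ≤ θ * (b ^ (-(α + 1)) * z ^ (2 * (j + 1))) := by positivity
  have h1 : 0 ≤ θ ^ (-α) / R ^ (2 * α + 2) := by positivity
  by_cases hsmall : b ≤ θ * R ^ 2 * z ^ 2
  · refine le_trans ?_ (le_add_of_nonneg_right h1)
    rw [div_le_iff₀ (by positivity)]
    calc b ^ (-(α + 1)) * b * z ^ (2 * j) ≤ b ^ (-(α + 1)) * (θ * R ^ 2 * z ^ 2) * z ^ (2 * j) := by gcongr
      _ = _ := by ring
  push Not at hsmall
  refine le_trans ?_ (le_add_of_nonneg_left h0)
  rcases eq_or_lt_of_le hz with hz0 | hz0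
  · rw [← hz0, zero_pow (by omega : 2 * j ≠ 0), mul_zero, zero_div]
    exact h1
  rw [← rpow_add_one hb.ne', show -(α + 1) + 1 = -α by ring]
  have h2 : b ^ (-α) ≤ θ ^ (-α) * R ^ (-(2 * α)) * z ^ (-(2 * α)) := by
    refine (rpow_le_rpow_of_nonpos (by positivity) hsmall.le (neg_nonpos.2 hα)).trans_eq ?_
    rw [mul_rpow (by positivity) (by positivity), mul_rpow hθ.le (by positivity),
      ← rpow_natCast, ← rpow_natCast, ← rpow_mul hR.le, ← rpow_mul hz]
    push_cast; ring_nf
  have h3 : z ^ (-(2 * α)) * z ^ (2 * j) ≤ 1 := by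
    rw [← rpow_natCast z, ← rpow_add hz0]
    refine rpow_le_one hz hz1 ?_
    push_cast
    linarith
  calc b ^ (-α) * z ^ (2 * j) / R ^ 2
      ≤ θ ^ (-α) * R ^ (-(2 * α)) * (z ^ (-(2 * α)) * z ^ (2 * j)) / R ^ 2 := by
        rw [← mul_assoc]; gcongr
    _ ≤ θ ^ (-α) * R ^ (-(2 * α)) * 1 / R ^ 2 := by gcongr
    _ = _ := by rw [mul_one, rpow_neg hR.le, rpow_add hR, rpow_two]; field_simp

/-- The square of the gradient of the test weight. -/
lemma grad_test_le {Cc α δ θ R : ℝ} (hC : ∀ i x, |pd (cube (m := m) R) i x| ≤ Cc / R) (hα : 0 ≤ α)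
    (hδ : 0 < δ) (hθ : 0 < θ) (hR : 0 < R) {j : ℕ} (hj : α ≤ j) (hj1 : 1 ≤ j) (x : Fin (m + 1) → ℝ) :
    ∑ i, pd (fun y => (1 + rho S y) ^ (-α / 2) * cube R y ^ (j + 1)) i x ^ 2 ≤
      ((1 + δ) * α ^ 2 + (1 + 1 / δ) * ((j : ℝ) + 1) ^ 2 * (((m : ℝ) + 1) * Cc ^ 2) * θ)
          * (wgt S α x * cube R x ^ (2 * (j + 1)))
        + (1 + 1 / δ) * ((j : ℝ) + 1) ^ 2 * (((m : ℝ) + 1) * Cc ^ 2) * θ ^ (-α) / R ^ (2 * α + 2)
          * cube (2 * R) x := by
  set v := fun y : Fin (m + 1) → ℝ => (1 + rho S y) ^ (-α / 2) with hv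
  set D : ℝ := (1 + 1 / δ) * ((j : ℝ) + 1) ^ 2 * (((m : ℝ) + 1) * Cc ^ 2) with hD
  set z := cube R x with hz
  have hvd : DifferentiableAt ℝ v x :=
    ((contDiff_const.add contDiff_rho).differentiable one_ne_zero x).rpow_const
      (Or.inl (one_add_rho_pos x).ne')
  have hde : ∀ i, pd (fun y => v y * cube R y ^ (j + 1)) i x
      = pd v i x * z ^ (j + 1) + v x * (((j : ℝ) + 1) * z ^ j * pd (cube R) i x) := fun i => by
    rw [pd, show (fun y => v y * cube R y ^ (j + 1)) = v * (fun y => cube R y ^ (j + 1)) from rfl,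
      (hvd.hasFDerivAt.mul
        (((contDiff_cube R).differentiable one_ne_zero x).hasFDerivAt.pow (j + 1))).fderiv]
    simp [pd, hz]
    ring
  have hy : ∀ a b : ℝ, (a + b) ^ 2 ≤ (1 + δ) * a ^ 2 + (1 + 1 / δ) * b ^ 2 := fun a b => by
    have e : (1 + δ) * a ^ 2 + (1 + 1 / δ) * b ^ 2 - (a + b) ^ 2 = (δ * a - b) ^ 2 / δ := by
      field_simp; ring
    linarith [show 0 ≤ (δ * a - b) ^ 2 / δ by positivity]
  have hz0 : 0 ≤ z := (cube_mem R x).1
  have hW : 0 < wgt S α x := wgt_pos α x
  have hD0 : 0 ≤ D := by positivity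
  have s1 : ∑ i, (pd v i x * z ^ (j + 1)) ^ 2 ≤ α ^ 2 * (wgt S α x * z ^ (2 * (j + 1))) := by
    simp only [mul_pow, ← Finset.sum_mul, ← pow_mul, mul_comm (j + 1) 2]
    rw [← mul_assoc]
    exact mul_le_mul_of_nonneg_right (sum_sq_pd_rpow_le x) (by positivity)
  have s2 : ∑ i, (1 + 1 / δ) * (v x * (((j : ℝ) + 1) * z ^ j * pd (cube R) i x)) ^ 2 ≤
      D * θ * (wgt S α x * z ^ (2 * (j + 1))) + D * θ ^ (-α) / R ^ (2 * α + 2) * cube (2 * R) x := by
    by_cases hout : ∀ i, pd (cube R) i x = 0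
    · simp only [hout, mul_zero, zero_pow two_ne_zero, Finset.sum_const_zero]
      have := (cube_mem (m := m) (2 * R) x).1
      positivity
    push Not at hout
    obtain ⟨i₀, hi₀⟩ := hout
    have hin : ∀ l, |x l| ≤ 2 * R := fun l => by
      by_contra hl
      push Not at hl
      apply hi₀
      have hn : x ∉ tsupport (cube (m := m) R) := by
        rw [notMem_tsupport_iff_eventuallyEq]
        filter_upwards [((continuous_apply l).abs.tendsto x).eventually (eventually_gt_nhds hl)] with y hy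
        exact cube_eq_zero hR hy.le
      rw [pd, fderiv_of_notMem_tsupport ℝ hn]
      simp
    rw [cube_eq_one (show 0 < 2 * R by linarith) hin, mul_one]
    refine (Finset.sum_le_card_nsmul _ _ (D / ((m : ℝ) + 1) *
      (v x ^ 2 * z ^ (2 * j) / R ^ 2)) fun i _ => ?_).trans ?_
    · rw [mul_pow, mul_pow, mul_pow, ← pow_mul, mul_comm j 2, hD]
      have hp : pd (cube R) i x ^ 2 ≤ Cc ^ 2 / R ^ 2 := by
        rw [← div_pow, ← sq_abs]; exact pow_le_pow_left₀ (abs_nonneg _) (hC i x) 2
      refine le_of_le_of_eq (mul_le_mul_of_nonneg_left (mul_le_mul_of_nonneg_left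
        (mul_le_mul_of_nonneg_left hp (by positivity)) (by positivity)) (by positivity)) ?_
      field_simp
    rw [Finset.card_univ, Fintype.card_fin, nsmul_eq_mul, Nat.cast_add, Nat.cast_one, ← mul_assoc,
      mul_div_cancel₀ _ (by positivity : ((m : ℝ) + 1) ≠ 0)]
    have h := mul_le_mul_of_nonneg_left (absorb hα hθ hR hz0 (cube_mem R x).2 (one_add_rho_pos (S := S) x)
      hj hj1) hD0
    rw [show v x ^ 2 = (1 + rho S x) ^ (-(α + 1)) * (1 + rho S x) from rpow_neg_half_sq α x]
    simp only [wgt]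
    rw [mul_div_assoc D]
    linarith
  refine (Finset.sum_le_sum fun i _ => (le_of_eq (by rw [hde i])).trans (hy (pd v i x * z ^ (j + 1))
    (v x * (((j : ℝ) + 1) * z ^ j * pd (cube R) i x)))).trans ?_
  rw [Finset.sum_add_distrib, ← Finset.mul_sum]
  linarith [mul_le_mul_of_nonneg_left s1 (show 0 ≤ 1 + δ by linarith)]

/-- The weighted bound. -/
theorem exists_weighted_bound {α : ℝ} (hα : 0 ≤ α) (hS : α ^ 2 < (S.card : ℝ) - 1) :
    ∃ (k : ℕ) (C : ℝ), 0 < k ∧ 0 ≤ C ∧ ∀ P : Sol m, IsRotInvariant S P.u → ∀ R : ℝ, 1 ≤ R →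
      ∫ x, gsq P S x * (wgt S α x * cube R x ^ (2 * k)) ≤
        C / R ^ (2 * α + 2) * ∫ x, gsq P S x * cube (2 * R) x := by
  set p : ℝ := (S.card : ℝ) - 1 with hp
  obtain ⟨Cc, hCc0, hCc⟩ := exists_cube_bound (m := m)
  obtain ⟨j, hj⟩ := exists_nat_ge (α + 1)
  have hj1 : 1 ≤ j := by
    by_contra h
    rw [show j = 0 by omega, Nat.cast_zero] at hj
    linarith
  set δ : ℝ := (p - α ^ 2) / (2 * (α ^ 2 + 1)) with hδ
  have hδ0 : 0 < δ := div_pos (by linarith) (by positivity)
  set c := p - (1 + δ) * α ^ 2 with hc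
  have hc0 : 0 < c := by
    have : δ * α ^ 2 ≤ (p - α ^ 2) / 2 := by
      rw [hδ, div_mul_eq_mul_div, div_le_iff₀ (by positivity)]
      nlinarith
    linarith
  set D : ℝ := (1 + 1 / δ) * ((j : ℝ) + 1) ^ 2 * (((m : ℝ) + 1) * Cc ^ 2) with hD
  have hD0 : 0 ≤ D := by positivity
  set θ : ℝ := c / (2 * (D + 1)) with hθ
  have hθ0 : 0 < θ := by positivity
  have hθD : D * θ ≤ c / 2 := by
    rw [hθ, mul_div_assoc', div_le_iff₀ (by positivity)]
    nlinarith
  refine ⟨j + 1, 2 * D * θ ^ (-α) / c, j.succ_pos, by positivity, fun P hinv R hR => ?_⟩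
  have hR0 : 0 < R := by linarith
  set η := fun x : Fin (m + 1) → ℝ => (1 + rho S x) ^ (-α / 2) * cube R x ^ (j + 1) with hη
  have hηc : ContDiff ℝ 1 η :=
    ((contDiff_const.add contDiff_rho).rpow_const_of_ne fun x => (one_add_rho_pos x).ne').mul
      ((contDiff_cube R).pow _)
  have hζs : ∀ l : ℕ, l ≠ 0 → HasCompactSupport fun x => cube (m := m) R x ^ l := fun l hl =>
    (supp_cube hR0).comp_left (g := fun r : ℝ => r ^ l) (zero_pow hl)
  have hηs : HasCompactSupport η := (hζs _ (by omega)).mul_left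
  have h := radial_stability P hinv hηc hηs
  set T := ∫ x, gsq P S x * (wgt S α x * cube R x ^ (2 * (j + 1)))
  set Y := ∫ x, gsq P S x * cube (2 * R) x
  have hlhs : ∫ x, gsq P S x * η x ^ 2 / (1 + rho S x) = T := by
    refine integral_congr_ae (Filter.Eventually.of_forall fun x => ?_)
    simp only [hη]
    rw [mul_pow, rpow_neg_half_sq, ← pow_mul, mul_comm (j + 1) 2]
    field_simp [(one_add_rho_pos (S := S) x).ne']
  have iT : Integrable fun x => gsq P S x * (wgt S α x * cube R x ^ (2 * (j + 1))) :=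
    integrable_of_supp ((continuous_gsq P).fun_mul ((continuous_wgt α).fun_mul
      ((contDiff_cube R).continuous.pow _))) ((hζs _ (by omega)).mul_left.mul_left)
  have iY : Integrable fun x => gsq P S x * cube (2 * R) x :=
    integrable_of_supp ((continuous_gsq P).fun_mul (contDiff_cube _).continuous)
      (supp_cube (by linarith)).mul_left
  have hrhs : ∫ x, gsq P S x * ∑ i, pd η i x ^ 2 ≤
      ((1 + δ) * α ^ 2 + D * θ) * T + D * θ ^ (-α) / R ^ (2 * α + 2) * Y := by
    rw [← integral_const_mul, ← integral_const_mul, ← integral_add (iT.const_mul _) (iY.const_mul _)]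
    refine integral_mono ?_ ((iT.const_mul _).add (iY.const_mul _)) fun x => ?_
    · simp only [Finset.mul_sum]
      exact integrable_finsetSum _ fun i _ => integrable_of_supp
        ((continuous_gsq P).fun_mul ((continuous_pd hηc i).pow 2))
        (Sol.supp_sq (supp_pd hηs i)).mul_left
    · refine (mul_le_mul_of_nonneg_left (grad_test_le (fun i => (hCc R hR0 i).1) hα hδ0 hθ0 hR0
        (by linarith) hj1 x) (gsq_nonneg P x)).trans (le_of_eq ?_)
      simp only [hD]
      ring
  rw [hlhs, ← hp] at h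
  have hT0 : 0 ≤ T := integral_nonneg fun x =>
    mul_nonneg (gsq_nonneg P x) (mul_nonneg (wgt_pos α x).le (pow_nonneg (cube_mem R x).1 _))
  have h2 := mul_le_mul_of_nonneg_right hθD hT0
  have h' : c / 2 * T ≤ D * θ ^ (-α) / R ^ (2 * α + 2) * Y := by linarith [h.trans hrhs]
  calc T = 2 / c * (c / 2 * T) := by field_simp
    _ ≤ 2 / c * (D * θ ^ (-α) / R ^ (2 * α + 2) * Y) := mul_le_mul_of_nonneg_left h' (by positivity)
    _ = _ := by ring

end Vale.Agent.P134.Sym
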