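import Vale.Agent.P134.Slab.Main
import Vale.Agent.P134.Sym.Energy

/-!
# P134: monotone solutions with rotational symmetry in all axes but two are one-dimensional
-/

noncomputable section

open MeasureTheory Set Real Filter Topology

namespace Vale.Agent.P134.Sym

open Vale.Agent.P134.Periodic (pd continuous_pd IsMonotoneSolution IsOneDimensional)
open Vale.Agent.P134.Recur
open Vale.Agent.P134.Slab (plateau IsPeriodicOffThree)

variable {m : ℕ} {S : Finset (Fin (m + 1))}

lemma cube_eq_win (F : Frame m) (R : ℝ) : cube R = F.win 0 R R := by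
  funext x
  simp only [cube, Frame.win, weight]
  refine Finset.prod_congr rfl fun j _ => ?_
  simp only [Frame.tri, zero_sub, zero_add]
  split_ifs <;> rfl

/-- The gradient in `S` vanishes. -/
theorem gsq_vanishes (F : Frame m) (hinv : IsRotInvariant S F.P.u) (haS : F.P.a ∉ S) {α : ℝ}
    (hα : 0 ≤ α) (hS : α ^ 2 < (S.card : ℝ) - 1) (hn : (m : ℝ) < 2 * α + 2)
    (hcov : ∀ j, j ∉ S → j = F.P.a ∨ j = F.b ∨ j = F.d) (x : Fin (m + 1) → ℝ) : gsq F.P S x = 0 := by
  obtain ⟨E, hE⟩ := exists_energy F hinv haS hα hS hn hcov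
  obtain ⟨k, C, hk, hC0, hC⟩ := exists_weighted_bound (m := m) hα hS
  by_contra hne
  set R₀ : ℝ := 1 + ∑ j, |x j|
  have hsum : 0 ≤ ∑ j, |x j| := Finset.sum_nonneg fun j _ => abs_nonneg _
  have hR₀ : 0 < R₀ := by positivity
  set f := fun R y => gsq F.P S y * (wgt S α y * cube R y ^ (2 * k)) with hf
  have hcont : ∀ R, Continuous (f R) := fun R =>
    (continuous_gsq F.P).fun_mul ((continuous_wgt α).fun_mul ((contDiff_cube R).continuous.pow _))
  have hsupp : ∀ R, 0 < R → HasCompactSupport (f R) := fun R hR =>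
    ((supp_cube hR).comp_left (g := fun r : ℝ => r ^ (2 * k)) (zero_pow (by omega))).mul_left.mul_left
  have hnn : ∀ R y, 0 ≤ f R y := fun R y =>
    mul_nonneg (gsq_nonneg F.P y) (mul_nonneg (wgt_pos α y).le (pow_nonneg (cube_mem R y).1 _))
  have hpos : 0 < ∫ y, f R₀ y := by
    refine (hcont R₀).integral_pos_of_hasCompactSupport_nonneg_nonzero (hsupp R₀ hR₀) (hnn R₀) (x := x) ?_
    have h1 : cube R₀ x = 1 := cube_eq_one hR₀ fun j => by
      have := Finset.single_le_sum (f := fun j => |x j|) (fun j _ => abs_nonneg _) (Finset.mem_univ j)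
      linarith
    simp only [hf, h1, one_pow, mul_one]
    exact mul_ne_zero hne (wgt_pos α x).ne'
  have hlim : Tendsto (fun R : ℝ => C * (2 * E * 2 ^ m) * R ^ (-(2 * α + 2 - m))) atTop (𝓝 0) := by
    simpa using (tendsto_rpow_neg_atTop (show (0 : ℝ) < 2 * α + 2 - m by linarith)).const_mul
      (C * (2 * E * 2 ^ m))
  obtain ⟨R, hR, hsmall⟩ :=
    ((eventually_ge_atTop (2 * R₀ + 1)).and (hlim.eventually (eventually_lt_nhds hpos))).exists
  have hR1 : 1 ≤ R := by linarith
  have hR0 : 0 < R := by linarith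
  refine (lt_irrefl _) (lt_of_le_of_lt ?_ hsmall)
  calc ∫ y, f R₀ y ≤ ∫ y, f R y := by
        refine integral_mono (integrable_of_supp (hcont _) (hsupp _ hR₀))
          (integrable_of_supp (hcont _) (hsupp _ hR0)) fun y => ?_
        exact mul_le_mul_of_nonneg_left (mul_le_mul_of_nonneg_left (pow_le_pow_left₀ (cube_mem _ y).1
          (cube_le_cube hR₀ (by linarith) y) _) (wgt_pos α y).le) (gsq_nonneg F.P y)
    _ ≤ C / R ^ (2 * α + 2) * ∫ y, gsq F.P S y * cube (2 * R) y := hC F.P hinv R hR1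
    _ ≤ C / R ^ (2 * α + 2) * (2 * (E * (2 * R) ^ m)) := by
        refine mul_le_mul_of_nonneg_left ?_ (by positivity)
        refine le_trans ?_ (mul_le_mul_of_nonneg_left (hE (2 * R) (by linarith)) zero_le_two)
        rw [← integral_const_mul, ← cube_eq_win]
        refine integral_mono (integrable_of_supp ((continuous_gsq F.P).fun_mul (contDiff_cube _).continuous)
          (supp_cube (by linarith)).mul_left)
          ((integrable_of_supp (F.P.contDiff_dens.continuous.fun_mul (contDiff_cube _).continuous)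
            (supp_cube (by linarith)).mul_left).const_mul 2) fun y => ?_
        rw [← mul_assoc]
        exact mul_le_mul_of_nonneg_right ((gsq_le_grad2 F.P y).trans (F.P.grad2_le_dens y)) (cube_mem _ y).1
    _ = _ := by
        rw [show -(2 * α + 2 - (m : ℝ)) = (m : ℝ) - (2 * α + 2) by ring, rpow_sub hR0, rpow_natCast,
          mul_pow]
        ring

/-- A monotone solution invariant under the rotations in `S`, with `(n - 3) ^ 2 < 4 (|S| - 1)`, is
one-dimensional. -/
theorem one_dimensional {m : ℕ} (a : Fin (m + 1)) (S : Finset (Fin (m + 1))) (haS : a ∉ S)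
    (u : (Fin (m + 1) → ℝ) → ℝ) (hu : IsMonotoneSolution a u) (hinv : IsRotInvariant S u)
    (hm : 2 ≤ m) (hcard : ((m : ℝ) - 2) ^ 2 < 4 * ((S.card : ℝ) - 1)) : IsOneDimensional u := by
  classical
  have hm' : (2 : ℝ) ≤ m := by exact_mod_cast hm
  have hS2 : 2 ≤ S.card := by
    by_contra h
    have : (S.card : ℝ) ≤ 1 := by exact_mod_cast (show S.card ≤ 1 by omega)
    nlinarith [sq_nonneg ((m : ℝ) - 2)]
  have hSm : m ≤ S.card + 1 := by
    by_contra h
    have : (S.card : ℝ) + 2 ≤ m := by exact_mod_cast (show S.card + 2 ≤ m by omega)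
    nlinarith [sq_nonneg ((m : ℝ) - 4)]
  -- the frame
  set rest := (Finset.univ \ S).erase a with hrest
  have hrc : rest.card ≤ 1 := by
    rw [hrest, Finset.card_erase_of_mem (by simp [haS]), Finset.card_sdiff_of_subset (Finset.subset_univ S),
      Finset.card_univ, Fintype.card_fin]
    omega
  obtain ⟨b, hab, hb⟩ : ∃ b, a ≠ b ∧ ∀ j, j ∉ S → j ≠ a → j = b := by
    rcases rest.eq_empty_or_nonempty with h | ⟨b, hb⟩
    · obtain ⟨b, hbS⟩ : S.Nonempty := Finset.card_pos.1 (by omega)
      refine ⟨b, fun h' => haS (h' ▸ hbS), fun j hj hja => ?_⟩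
      have : j ∈ rest := by simp [hrest, hj, hja]
      simp [h] at this
    · refine ⟨b, fun h' => by simp [hrest, h'.symm] at hb, fun j hj hja => ?_⟩
      exact Finset.card_le_one.1 hrc j (by simp [hrest, hj, hja]) b hb
  obtain ⟨d, hd⟩ : (S.erase b).Nonempty := by
    refine Finset.card_pos.1 ?_
    have := Finset.pred_card_le_card_erase (s := S) (a := b)
    omega
  have hdS := Finset.mem_of_mem_erase hd
  set F : Frame m := ⟨⟨a, u, hu⟩, b, d, hab, fun h => haS ((show a = d from h) ▸ hdS), (Finset.ne_of_mem_erase hd).symm⟩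
  -- the exponent
  have hq : 0 ≤ (S.card : ℝ) - 1 := by
    have : (2 : ℝ) ≤ S.card := by exact_mod_cast hS2
    linarith
  set lo : ℝ := ((m : ℝ) - 2) / 2 with hlo
  have hlo0 : 0 ≤ lo := by rw [hlo]; linarith
  have hlt : lo < √((S.card : ℝ) - 1) := by
    rw [Real.lt_sqrt hlo0, hlo]
    linarith
  set α := (lo + √((S.card : ℝ) - 1)) / 2 with hαd
  have hα : lo < α ∧ α < √((S.card : ℝ) - 1) := ⟨by linarith, by linarith⟩
  have hS : α ^ 2 < (S.card : ℝ) - 1 := by
    have h := pow_lt_pow_left₀ hα.2 (by linarith [hα.1]) two_ne_zero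
    rwa [Real.sq_sqrt hq] at h
  have hzero : ∀ x, gsq F.P S x = 0 := gsq_vanishes F hinv haS (by linarith [hα.1]) hS
    (by linarith [hα.1]) fun j hj => by
      by_cases hja : j = a
      · exact Or.inl hja
      · exact Or.inr (Or.inl (hb j hj hja))
  refine Slab.one_dimensional a b d u hu fun j hja hjb hjd => ⟨1, one_ne_zero, fun x => ?_⟩
  have hjS : j ∈ S := by
    by_contra h
    exact hjb (hb j h hja)
  have hd0 : ∀ y, pd u j y = 0 := fun y =>
    sq_eq_zero_iff.1 ((Finset.sum_eq_zero_iff_of_nonneg fun _ _ => sq_nonneg _).1 (hzero y) j hjS)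
  have h : ∀ t, HasDerivAt (fun t : ℝ => u (x + (1 * t) • Pi.single j 1)) 0 t := fun t => by
    simpa [hd0] using Slab.hasDerivAt_line (hu.smooth.of_le (by norm_num) : ContDiff ℝ 1 u) x j 1 t
  have := is_const_of_deriv_eq_zero (fun t => (h t).differentiableAt) (fun t => (h t).deriv) 1 0
  simpa using this

/-- The symmetry class is not empty: the planar profile. -/
theorem exists_instance {n : ℕ} (a : Fin n) (S : Finset (Fin n)) (haS : a ∉ S) :
    ∃ u, IsMonotoneSolution a u ∧ IsRotInvariant S u := by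
  set c : ℝ := (√2)⁻¹ with hc
  have hc0 : 0 < c := inv_pos.2 (sqrt_pos.2 two_pos)
  have hc2 : c ^ 2 = 1 / 2 := by rw [hc, inv_pow, sq_sqrt zero_le_two]; norm_num
  set u : (Fin n → ℝ) → ℝ := fun x => tanh (c * x a) with hu
  set L := ContinuousLinearMap.proj (R := ℝ) (φ := fun _ : Fin n => ℝ) a
  have h1 : ∀ x, HasFDerivAt u ((1 - u x ^ 2) • c • L) x := fun x =>
    HasDerivAt.comp_hasFDerivAt (h₂ := tanh) (f := fun y : Fin n → ℝ => c * y a) x
      (Periodic.hasDerivAt_tanh' (c * x a))
      ((hasFDerivAt_apply (𝕜 := ℝ) (F' := fun _ : Fin n => ℝ) a x).const_mul c)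
  have hpd : ∀ i, pd u i = fun x => (1 - u x ^ 2) * (c * (Pi.single i 1 : Fin n → ℝ) a) := fun i => by
    funext x
    rw [pd, (h1 x).fderiv]
    simp [L]
  refine ⟨u, ⟨?_, fun x => (abs_tanh_lt_one _).le, fun x => ?_, fun x => ?_⟩, fun x y h _ => ?_⟩
  · have : ContDiff ℝ 2 tanh := by
      rw [show tanh = fun x => sinh x / cosh x from funext tanh_eq_sinh_div_cosh]
      exact contDiff_sinh.div contDiff_cosh fun x => (cosh_pos x).ne'
    exact this.comp (contDiff_const.mul (contDiff_apply ℝ ℝ a))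
  · have h2 : ∀ i, pd (pd u i) i x
        = -2 * u x * (1 - u x ^ 2) * (c * (Pi.single i 1 : Fin n → ℝ) a) ^ 2 := fun i => by
      rw [hpd i, pd, (((h1 x).pow 2).const_sub 1 |>.mul_const _).fderiv]
      simp [L]
      ring
    simp only [h2, Pi.single_apply]
    rw [Finset.sum_eq_single a (fun i _ hi => by simp [Ne.symm hi]) (by simp)]
    simp [hc2]
    ring
  · rw [hpd]
    have : 0 < 1 - u x ^ 2 := sub_pos.2 ((sq_lt_one_iff_abs_lt_one _).2 (abs_tanh_lt_one _))
    simpa using mul_pos this hc0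
  · simp only [hu, h a haS]

end Vale.Agent.P134.Sym
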